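import Vale.Agent.P054.T2.H441.Dense

/-!
# P054 / T2, leaf [G3] for a family of classes
-/

open MvPolynomial Module

namespace Vale.Agent.P054.T2.H441

variable {σ K : Type*} [Field K]

lemma rkY_empty (n : ℕ) : rkY (∅ : Finset (σ → K)) n = 0 := by
  unfold rkY
  have h : ∀ x : ((restrictTotalDegree σ K n).map
      (resA (∅ : Finset (σ → K))).toLinearMap), x = 0 := by
    intro x
    apply Subtype.ext
    funext p
    exact absurd p.2 (Finset.notMem_empty _)
  have : Subsingleton ((restrictTotalDegree σ K n).map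
      (resA (∅ : Finset (σ → K))).toLinearMap) :=
    ⟨fun a b => (h a).trans (h b).symm⟩
  exact finrank_zero_of_subsingleton

lemma rkY_biUnion_le [Finite σ] [DecidableEq (σ → K)] {ι : Type*}
    (A : Finset ι) (Y : ι → Finset (σ → K)) (n : ℕ) :
    rkY (A.biUnion Y) n ≤ ∑ a ∈ A, rkY (Y a) n := by
  classical
  induction A using Finset.induction_on with
  | empty => simp [rkY_empty]
  | insert a A ha ih =>
    rw [Finset.sum_insert ha]
    have h1 : (insert a A).biUnion Y = Y a ∪ A.biUnion Y := Finset.biUnion_insert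
    rw [h1]
    exact (rkY_union_le _ _ _).trans (Nat.add_le_add_left ih _)

/-- a subset has smaller rank -/
lemma rkY_mono_set [Finite σ] {Y Z : Finset (σ → K)} (h : Y ⊆ Z) (n : ℕ) :
    rkY Y n ≤ rkY Z n := by
  classical
  let r : (Z → K) →ₗ[K] (Y → K) := LinearMap.pi fun p => LinearMap.proj ⟨p, h p.2⟩
  have h1 : (restrictTotalDegree σ K n).map (resA Y).toLinearMap =
      ((restrictTotalDegree σ K n).map (resA Z).toLinearMap).map r := by
    rw [← Submodule.map_comp]
    congr 1
  unfold rkY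
  rw [h1]
  exact Submodule.finrank_map_le r _

/-- the rank is at most the number of points -/
lemma rkY_le_card (Y : Finset (σ → K)) (n : ℕ) : rkY Y n ≤ Y.card := by
  unfold rkY
  refine (Submodule.finrank_le _).trans ?_
  simp

/-- the rank of a set of points on which `I` vanishes is at most the Hilbert function of `I` -/
lemma rkY_le_hF [Finite σ] (Y : Finset (σ → K)) (I : Ideal (MvPolynomial σ K))
    (hI : ∀ F ∈ I, ∀ p ∈ Y, eval p F = 0) (n : ℕ) : rkY Y n ≤ hF I n := by
  classical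
  have hker : ∀ a ∈ I, resA Y a = 0 := by
    intro a ha
    ext p
    rw [resA_apply]
    exact hI a ha p p.2
  let ψ : (MvPolynomial σ K ⧸ I) →ₐ[K] (Y → K) := Ideal.Quotient.liftₐ I (resA Y) hker
  have hmap : (restrictTotalDegree σ K n).map (resA Y).toLinearMap =
      ((restrictTotalDegree σ K n).map (Ideal.Quotient.mkₐ K I).toLinearMap).map
        ψ.toLinearMap := by
    rw [← Submodule.map_comp]
    congr 1
  unfold rkY hF
  rw [hmap]
  exact Submodule.finrank_map_le _ _

/-- **[G3] for a family.** Classes `a ∈ A` with primes `P a`, points `Y a` of the class, a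
polynomial `f a` of degree `≤ T` outside `P a` which vanishes on `Y a`. -/
theorem g3_family [Finite σ] [DecidableEq (σ → K)] {ι : Type*} (A : Finset ι)
    (P : ι → Ideal (MvPolynomial σ K)) (hP : ∀ a ∈ A, (P a).IsPrime)
    (Y : ι → Finset (σ → K)) (hPe : ∀ a ∈ A, ∀ p ∈ Y a, ∀ F ∈ P a, eval p F = 0) {T : ℕ}
    (f : ι → MvPolynomial σ K) (hfT : ∀ a ∈ A, (f a).totalDegree ≤ T)
    (hfP : ∀ a ∈ A, f a ∉ P a) (hfY : ∀ a ∈ A, ∀ p ∈ Y a, eval p (f a) = 0) (T' J : ℕ) :
    J * rkY (A.biUnion Y) T' + ∑ a ∈ A, hF (P a) T' ≤ ∑ a ∈ A, hF (P a) (T' + J * T) := by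
  have h1 : ∀ a ∈ A, J * rkY (Y a) T' + hF (P a) T' ≤ hF (P a) (T' + J * T) := by
    intro a ha
    refine mul_rkY_le (Y a) (P a) ?_ (f a) (hfT a ha) (hfY a ha) ?_ T' J
    · intro F hF p hp
      exact hPe a ha p hp F hF
    · intro g hg
      exact ((hP a ha).mem_or_mem hg).resolve_left (hfP a ha)
  calc J * rkY (A.biUnion Y) T' + ∑ a ∈ A, hF (P a) T'
      ≤ J * ∑ a ∈ A, rkY (Y a) T' + ∑ a ∈ A, hF (P a) T' :=
        Nat.add_le_add_right (Nat.mul_le_mul_left _ (rkY_biUnion_le A Y T')) _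
    _ = ∑ a ∈ A, (J * rkY (Y a) T' + hF (P a) T') := by
        rw [Finset.mul_sum, Finset.sum_add_distrib]
    _ ≤ _ := Finset.sum_le_sum h1

end Vale.Agent.P054.T2.H441
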