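import Vale.Agent.P054.T2.H441.AGeo
import Vale.Agent.P054.T2.H930.TanEdge

/-!
# P054 / T2, row B8: [AD] on the triple family `(g, s, r)`

Index type `Crd n ⊕ (Pt n ⊕ Pt n)`, points `edgePt s r`.  The coordinates of `g = meet s r`, of `s`
and of `r` move along explicit polynomial vector fields (multiplied by `ζ_s0 - ζ_r0`).  If [GOOD]
holds for the triple system then the contraction of its germ ideal to `ℝ[s, r]` is stable under all
coefficientwise derivations in the coordinates `(x, x'; y, y')`.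
-/

set_option linter.unusedSectionVars false

open MvPolynomial

namespace Vale.Agent.P054.T2.H441

open Vale.Agent.P054.T2.H686 Vale.Agent.P054.T2.H580 Vale.Agent.P054.T2.SecC
open Vale.Agent.P054.T2.H930 (germ mx grad J Pt ptc edgePt)

variable {n : ℕ} {k : Type*} [CommRing k] [Algebra k ℝ]

section block

variable {σ : Type*}

/-- `rot` as a polynomial in the block `j` of variables -/
noncomputable def rotJ (O : Matrix (Fin (n + 1)) (Fin (n + 1)) ℝ) (j : ZI n → σ)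
    (i : Fin (n + 1)) : MvPolynomial σ ℝ :=
  ∑ l, C (O i l) * ((X (j (Sum.inr l)) - X (j (Sum.inl l))) * C (1 / 2))

theorem eval_rotJ (O : Matrix (Fin (n + 1)) (Fin (n + 1)) ℝ) (j : ZI n → σ) (p : σ → ℝ)
    (r : ZZ n) (h1 : ∀ i, p (j (Sum.inl i)) = r.1 i) (h2 : ∀ i, p (j (Sum.inr i)) = r.2 i)
    (i : Fin (n + 1)) : eval p (rotJ O j i) = rot O r i := by
  unfold rotJ rot
  rw [map_sum]
  refine Finset.sum_congr rfl fun l _ => ?_
  simp only [map_mul, map_sub, eval_C, eval_X, h1, h2]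
  ring

theorem rotJ_mem (O : Matrix (Fin (n + 1)) (Fin (n + 1)) ℝ) (j : ZI n → σ) (w : σ → ℕ) {M : ℕ}
    (hw : ∀ b, w (j b) ≤ M) (i : Fin (n + 1)) : rotJ O j i ∈ Vw ℝ w M := by
  unfold rotJ
  refine Submodule.sum_mem _ fun l _ => ?_
  have h1 : ∀ b, (X (j b) : MvPolynomial σ ℝ) ∈ Vw ℝ w M := fun b =>
    Vw_mono _ (hw b) (X_mem_Vw (k := ℝ) w (j b))
  have h3 := mul_mem_Vw w (C_mem_Vw (k := ℝ) w (O i l) 0)
    (mul_mem_Vw w (Submodule.sub_mem _ (h1 (Sum.inr l)) (h1 (Sum.inl l)))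
      (C_mem_Vw _ (1 / 2 : ℝ) 0))
  simpa using h3

/-- the coordinates `(y, y')` of a block are constant -/
theorem dM_yP_block (D : Derivation k ℝ ℝ) (B O : Matrix (Fin (n + 1)) (Fin (n + 1)) ℝ)
    (hD : B.map D = O * B) (hO : O.transpose = -O) (μ : MvPolynomial σ ℝ)
    (G : σ → MvPolynomial σ ℝ) (j : ZI n → σ)
    (hG1 : ∀ i, G (j (Sum.inl i)) = - (μ * rotJ O j i))
    (hG2 : ∀ i, G (j (Sum.inr i)) = μ * rotJ O j i) (b : ZI n) :
    dM D μ G (rename j (yP B b)) = 0 := by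
  have hD' : ∀ i j, D (B i j) = (O * B) i j := by
    intro i j
    have := congrFun (congrFun hD i) j
    rwa [Matrix.map_apply] at this
  have hh : dM D μ G (C (1 / 2 : ℝ)) = 0 := by
    rw [dM_C]
    have : D (1 / 2 : ℝ) = 0 := by
      have h3 := D.leibniz (2 : ℝ) (1 / 2 : ℝ)
      rw [mul_one_div_cancel (two_ne_zero), D.map_one_eq_zero] at h3
      have h4 : D (2 : ℝ) = 0 := by
        have : (2 : ℝ) = 1 + 1 := by norm_num
        rw [this, map_add, D.map_one_eq_zero, add_zero]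
      rw [h4, smul_zero, add_zero, smul_eq_mul] at h3
      rcases mul_eq_zero.1 h3.symm with h5 | h5
      · exact absurd h5 two_ne_zero
      · exact h5
    rw [this, map_zero, mul_zero]
  rcases b with i | m
  · have h0 : rename j (yP B (Sum.inl i)) = (X (j (Sum.inl i)) +
        X (j (Sum.inr i))) * C (1 / 2 : ℝ) := by
      show rename j ((X (Sum.inl i) + X (Sum.inr i)) * C (1 / 2)) = _
      rw [map_mul, map_add, rename_X, rename_X, rename_C]
    rw [h0, Derivation.leibniz, hh, map_add, dM_X, dM_X, hG1, hG2]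
    rw [neg_add_cancel, smul_zero, smul_zero, add_zero]
  · have h0 : rename j (yP B (Sum.inr m)) = ∑ i, C (B i m) *
        ((X (j (Sum.inr i)) - X (j (Sum.inl i))) * C (1 / 2 : ℝ)) := by
      show rename j (∑ i, C (B i m) * ((X (Sum.inr i) - X (Sum.inl i)) *
        C (1 / 2))) = _
      rw [map_sum]
      refine Finset.sum_congr rfl fun i _ => ?_
      rw [map_mul, map_mul, map_sub, rename_X, rename_X, rename_C, rename_C]
    rw [h0, map_sum]
    have h3 : ∀ i, dM D μ G (C (B i m) *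
        ((X (j (Sum.inr i)) - X (j (Sum.inl i))) * C (1 / 2))) =
        μ * (C (B i m) * rotJ O j i +
          C ((O * B) i m) * ((X (j (Sum.inr i)) - X (j (Sum.inl i))) *
            C (1 / 2))) := by
      intro i
      rw [Derivation.leibniz, Derivation.leibniz, hh, dM_C, hD', map_sub, dM_X, dM_X, hG1, hG2]
      simp only [smul_eq_mul, mul_zero, zero_add, sub_neg_eq_add]
      have h4 : (C (1 / 2 : ℝ) : MvPolynomial σ ℝ) * (μ * rotJ O j i + μ * rotJ O j i)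
          = μ * rotJ O j i := by
        rw [← two_mul, ← mul_assoc]
        have : (C (1 / 2 : ℝ) : MvPolynomial σ ℝ) * 2 = 1 := by
          have h5 : (2 : MvPolynomial σ ℝ) = C 2 := (map_ofNat C 2).symm
          rw [h5, ← C_mul, one_div_mul_cancel two_ne_zero, C_1]
        rw [this, one_mul]
      rw [h4]
      ring
    simp only [h3]
    rw [← Finset.mul_sum, Finset.sum_add_distrib]
    have h6 : ∑ i, C (B i m) * rotJ O j i = ∑ l, (∑ i, C (B i m) * C (O i l)) *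
        ((X (j (Sum.inr l)) - X (j (Sum.inl l))) * C (1 / 2) :
          MvPolynomial σ ℝ) := by
      unfold rotJ
      simp only [Finset.mul_sum, Finset.sum_mul]
      rw [Finset.sum_comm]
      refine Finset.sum_congr rfl fun l _ => Finset.sum_congr rfl fun i _ => ?_
      ring
    have h7 : ∀ l, (∑ i, C (B i m) * C (O i l) : MvPolynomial σ ℝ) = - C ((O * B) l m) := by
      intro l
      rw [Matrix.mul_apply, ← map_neg, ← Finset.sum_neg_distrib, map_sum]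
      refine Finset.sum_congr rfl fun i _ => ?_
      rw [← C_mul]
      congr 1
      have h8 : O i l = - O l i := by
        have := congrFun (congrFun hO l) i
        simpa [Matrix.transpose_apply] using this
      rw [h8]
      ring
    rw [h6]
    simp only [h7]
    rw [← Finset.sum_add_distrib, Finset.sum_eq_zero, mul_zero]
    intro i _
    ring

end block

/-- index type of the triple family -/
abbrev TI (n : ℕ) := Crd n ⊕ (Pt n ⊕ Pt n)

/-- the block of `s` -/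
abbrev js (n : ℕ) : ZI n → TI n := fun b => Sum.inr (Sum.inl b)

/-- the block of `r` -/
abbrev jr (n : ℕ) : ZI n → TI n := fun b => Sum.inr (Sum.inr b)

/-- `ζ_s0 - ζ_r0` -/
noncomputable def muT (n : ℕ) : MvPolynomial (TI n) ℝ :=
  X (js n (Sum.inl 0)) - X (jr n (Sum.inl 0))

/-- velocity of `ζ_s i - ζ_r i` -/
noncomputable def dzT (O : Matrix (Fin (n + 1)) (Fin (n + 1)) ℝ) (i : Fin (n + 1)) :
    MvPolynomial (TI n) ℝ := rotJ O (jr n) i - rotJ O (js n) i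

/-- velocity of `u i`, times `muT` -/
noncomputable def guT (O : Matrix (Fin (n + 1)) (Fin (n + 1)) ℝ) (i : Fin n) :
    MvPolynomial (TI n) ℝ := dzT O i.succ - X (Sum.inl (Sum.inl i)) * dzT O 0

/-- the vector field on the triple, times `muT` -/
noncomputable def GT (O : Matrix (Fin (n + 1)) (Fin (n + 1)) ℝ) : TI n → MvPolynomial (TI n) ℝ
  | Sum.inl (Sum.inl i) => guT O i
  | Sum.inl (Sum.inr (Sum.inl i)) => - (muT n * rotJ O (js n) i.succ) +
      muT n * rotJ O (js n) 0 * X (Sum.inl (Sum.inl i)) - X (js n (Sum.inl 0)) * guT O i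
  | Sum.inl (Sum.inr (Sum.inr _)) => - (muT n * rotJ O (js n) 0) -
      ∑ i : Fin n, (muT n * rotJ O (js n) i.succ * X (Sum.inl (Sum.inl i)) +
        X (js n (Sum.inr i.succ)) * guT O i)
  | Sum.inr (Sum.inl (Sum.inl i)) => - (muT n * rotJ O (js n) i)
  | Sum.inr (Sum.inl (Sum.inr i)) => muT n * rotJ O (js n) i
  | Sum.inr (Sum.inr (Sum.inl i)) => - (muT n * rotJ O (jr n) i)
  | Sum.inr (Sum.inr (Sum.inr i)) => muT n * rotJ O (jr n) i

theorem eval_muT (s r : ZZ n) : eval (edgePt s r) (muT n) = s.1 0 - r.1 0 := by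
  unfold muT
  rw [map_sub, eval_X, eval_X]
  rfl

theorem eval_guT (D : Derivation k ℝ ℝ) (O : Matrix (Fin (n + 1)) (Fin (n + 1)) ℝ) (s r : ZZ n)
    (hs : ∀ i, D (s.1 i) = - rot O s i ∧ D (s.2 i) = rot O s i)
    (hr : ∀ i, D (r.1 i) = - rot O r i ∧ D (r.2 i) = rot O r i) (h0 : s.1 0 ≠ r.1 0)
    (i : Fin n) : eval (edgePt s r) (guT O i) = (s.1 0 - r.1 0) * D (mu s r i) := by
  have hne : s.1 0 - r.1 0 ≠ 0 := sub_ne_zero.2 h0
  have hJs : ∀ i, eval (edgePt s r) (rotJ O (js n) i) = rot O s i :=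
    eval_rotJ O (js n) (edgePt s r) s (fun _ => rfl) (fun _ => rfl)
  have hJr : ∀ i, eval (edgePt s r) (rotJ O (jr n) i) = rot O r i :=
    eval_rotJ O (jr n) (edgePt s r) r (fun _ => rfl) (fun _ => rfl)
  have h1 : mu s r i * (s.1 0 - r.1 0) = s.1 i.succ - r.1 i.succ := by
    unfold mu
    rw [div_mul_cancel₀ _ hne]
  have h2 := congrArg D h1
  rw [Derivation.leibniz, smul_eq_mul, smul_eq_mul, map_sub, map_sub, (hr 0).1, (hr _).1,
    (hs 0).1, (hs _).1] at h2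
  unfold guT dzT
  rw [map_sub, map_mul, map_sub, map_sub, hJs, hJs, hJr, hJr, eval_X]
  show rot O r i.succ - rot O s i.succ - mu s r i * (rot O r 0 - rot O s 0) = _
  linear_combination -h2

/-- **The vector field along the actual triples.** -/
theorem eval_GT (D : Derivation k ℝ ℝ) (O : Matrix (Fin (n + 1)) (Fin (n + 1)) ℝ) (s r : ZZ n)
    (hs : ∀ i, D (s.1 i) = - rot O s i ∧ D (s.2 i) = rot O s i)
    (hr : ∀ i, D (r.1 i) = - rot O r i ∧ D (r.2 i) = rot O r i) (h0 : s.1 0 ≠ r.1 0)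
    (x : TI n) :
    eval (edgePt s r) (muT n) * D (edgePt s r x) = eval (edgePt s r) (GT O x) := by
  have hJs : ∀ i, eval (edgePt s r) (rotJ O (js n) i) = rot O s i :=
    eval_rotJ O (js n) (edgePt s r) s (fun _ => rfl) (fun _ => rfl)
  have hJr : ∀ i, eval (edgePt s r) (rotJ O (jr n) i) = rot O r i :=
    eval_rotJ O (jr n) (edgePt s r) r (fun _ => rfl) (fun _ => rfl)
  have hgu := eval_guT D O s r hs hr h0
  rw [eval_muT]
  rcases x with (i | i | i) | (i | i) | (i | i)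
  · show (s.1 0 - r.1 0) * D (mu s r i) = eval (edgePt s r) (guT O i)
    rw [hgu]
  · show (s.1 0 - r.1 0) * D (s.1 i.succ - s.1 0 * mu s r i) =
      eval (edgePt s r) (- (muT n * rotJ O (js n) i.succ) +
      muT n * rotJ O (js n) 0 * X (Sum.inl (Sum.inl i)) - X (js n (Sum.inl 0)) * guT O i)
    rw [map_sub D, Derivation.leibniz, map_sub, map_add, map_neg, map_mul, map_mul, map_mul,
      map_mul, eval_muT, hJs, hJs, hgu, eval_X, eval_X, (hs _).1, (hs _).1, smul_eq_mul,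
      smul_eq_mul]
    show _ = -((s.1 0 - r.1 0) * rot O s i.succ) + (s.1 0 - r.1 0) * rot O s 0 * mu s r i -
      s.1 0 * ((s.1 0 - r.1 0) * D (mu s r i))
    ring
  · show (s.1 0 - r.1 0) * D (- s.2 0 - ∑ i : Fin n, s.2 i.succ * mu s r i) =
      eval (edgePt s r) (- (muT n * rotJ O (js n) 0) -
      ∑ i : Fin n, (muT n * rotJ O (js n) i.succ * X (Sum.inl (Sum.inl i)) +
        X (js n (Sum.inr i.succ)) * guT O i))
    rw [map_sub D, map_sub, map_neg D, map_neg, map_mul, map_sum, map_sum, eval_muT, hJs,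
      (hs _).2]
    rw [mul_sub, mul_neg, Finset.mul_sum]
    congr 1
    refine Finset.sum_congr rfl fun i _ => ?_
    rw [Derivation.leibniz, map_add, map_mul, map_mul, map_mul, eval_muT, hJs, hgu, eval_X, eval_X,
      (hs _).2, smul_eq_mul, smul_eq_mul]
    show _ = (s.1 0 - r.1 0) * rot O s i.succ * mu s r i +
      s.2 i.succ * ((s.1 0 - r.1 0) * D (mu s r i))
    ring
  · show (s.1 0 - r.1 0) * D (s.1 i) = eval (edgePt s r) (- (muT n * rotJ O (js n) i))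
    rw [map_neg, map_mul, eval_muT, hJs, (hs _).1]
    ring
  · show (s.1 0 - r.1 0) * D (s.2 i) = eval (edgePt s r) (muT n * rotJ O (js n) i)
    rw [map_mul, eval_muT, hJs, (hs _).2]
  · show (s.1 0 - r.1 0) * D (r.1 i) = eval (edgePt s r) (- (muT n * rotJ O (jr n) i))
    rw [map_neg, map_mul, eval_muT, hJr, (hr _).1]
    ring
  · show (s.1 0 - r.1 0) * D (r.2 i) = eval (edgePt s r) (muT n * rotJ O (jr n) i)
    rw [map_mul, eval_muT, hJr, (hr _).2]

theorem muT_mem (w : TI n → ℕ) {M : ℕ} (hw : ∀ x, w x ≤ M) : muT n ∈ Vw ℝ w M := by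
  unfold muT
  exact Submodule.sub_mem _ (Vw_mono _ (hw _) (X_mem_Vw (k := ℝ) w _))
    (Vw_mono _ (hw _) (X_mem_Vw (k := ℝ) w _))

theorem GT_mem (O : Matrix (Fin (n + 1)) (Fin (n + 1)) ℝ) (w : TI n → ℕ) {M : ℕ}
    (hw : ∀ x, w x ≤ M) (x : TI n) : GT O x ∈ Vw ℝ w (3 * M) := by
  have hX : ∀ x, (X x : MvPolynomial (TI n) ℝ) ∈ Vw ℝ w M := fun x =>
    Vw_mono _ (hw x) (X_mem_Vw (k := ℝ) w x)
  have hs : ∀ i, rotJ O (js n) i ∈ Vw ℝ w M := rotJ_mem O (js n) w fun b => hw _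
  have hr : ∀ i, rotJ O (jr n) i ∈ Vw ℝ w M := rotJ_mem O (jr n) w fun b => hw _
  have hm := muT_mem (n := n) w hw
  have hdz : ∀ i, dzT O i ∈ Vw ℝ w M := fun i => Submodule.sub_mem _ (hr i) (hs i)
  have h2 : ∀ (p q : MvPolynomial (TI n) ℝ), p ∈ Vw ℝ w M → q ∈ Vw ℝ w M →
      p * q ∈ Vw ℝ w (2 * M) := by
    intro p q hp hq
    rw [two_mul]
    exact mul_mem_Vw w hp hq
  have h3 : ∀ (p q : MvPolynomial (TI n) ℝ), p ∈ Vw ℝ w (2 * M) → q ∈ Vw ℝ w M →
      p * q ∈ Vw ℝ w (3 * M) := by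
    intro p q hp hq
    rw [show 3 * M = 2 * M + M by ring]
    exact mul_mem_Vw w hp hq
  have h3' : ∀ (p q : MvPolynomial (TI n) ℝ), p ∈ Vw ℝ w M → q ∈ Vw ℝ w (2 * M) →
      p * q ∈ Vw ℝ w (3 * M) := by
    intro p q hp hq
    rw [mul_comm p q]
    exact h3 q p hq hp
  have hgu : ∀ i, guT O i ∈ Vw ℝ w (2 * M) := fun i =>
    Submodule.sub_mem _ (Vw_mono _ (by omega) (hdz _)) (h2 _ _ (hX _) (hdz _))
  have hup : ∀ (p : MvPolynomial (TI n) ℝ), p ∈ Vw ℝ w (2 * M) → p ∈ Vw ℝ w (3 * M) :=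
    fun p hp => Vw_mono _ (by omega) hp
  have hms : ∀ i, muT n * rotJ O (js n) i ∈ Vw ℝ w (2 * M) := fun i => h2 _ _ hm (hs i)
  have hmr : ∀ i, muT n * rotJ O (jr n) i ∈ Vw ℝ w (2 * M) := fun i => h2 _ _ hm (hr i)
  rcases x with (i | i | i) | (i | i) | (i | i)
  · show guT O i ∈ _
    exact hup _ (hgu i)
  · show - (muT n * rotJ O (js n) i.succ) +
      muT n * rotJ O (js n) 0 * X (Sum.inl (Sum.inl i)) - X (js n (Sum.inl 0)) * guT O i ∈ _
    refine Submodule.sub_mem _ (Submodule.add_mem _ (Submodule.neg_mem _ (hup _ (hms _))) ?_) ?_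
    · exact h3 _ _ (hms _) (hX _)
    · exact h3' _ _ (hX _) (hgu _)
  · show - (muT n * rotJ O (js n) 0) -
      ∑ i : Fin n, (muT n * rotJ O (js n) i.succ * X (Sum.inl (Sum.inl i)) +
        X (js n (Sum.inr i.succ)) * guT O i) ∈ _
    refine Submodule.sub_mem _ (Submodule.neg_mem _ (hup _ (hms _))) ?_
    refine Submodule.sum_mem _ fun i _ => Submodule.add_mem _ ?_ ?_
    · exact h3 _ _ (hms _) (hX _)
    · exact h3' _ _ (hX _) (hgu _)
  · show - (muT n * rotJ O (js n) i) ∈ _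
    exact Submodule.neg_mem _ (hup _ (hms _))
  · show muT n * rotJ O (js n) i ∈ _
    exact hup _ (hms _)
  · show - (muT n * rotJ O (jr n) i) ∈ _
    exact Submodule.neg_mem _ (hup _ (hmr _))
  · show muT n * rotJ O (jr n) i ∈ _
    exact hup _ (hmr _)

/-- polynomials in `(x, x'; y, y')` as polynomials in `(ζ_s, θ_s; ζ_r, θ_r)` -/
noncomputable def chg2 (B : Matrix (Fin (n + 1)) (Fin (n + 1)) ℝ) :
    MvPolynomial (ZI n ⊕ ZI n) ℝ →ₐ[ℝ] MvPolynomial (ZI n ⊕ ZI n) ℝ :=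
  aeval (Sum.elim (fun b => rename Sum.inl (yP B b)) (fun b => rename Sum.inr (yP B b)))

theorem chg2_inl (B : Matrix (Fin (n + 1)) (Fin (n + 1)) ℝ) (h : MvPolynomial (ZI n) ℝ) :
    chg2 B (rename Sum.inl h) = rename Sum.inl (chg B h) := by
  have : (chg2 B).comp (rename Sum.inl) =
      (rename (Sum.inl : ZI n → ZI n ⊕ ZI n)).comp (chg B) := by
    refine algHom_ext fun i => ?_
    rw [AlgHom.comp_apply, AlgHom.comp_apply, rename_X, chg_X]
    unfold chg2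
    rw [aeval_X, Sum.elim_inl]
  exact congrArg (fun φ : MvPolynomial (ZI n) ℝ →ₐ[ℝ] MvPolynomial (ZI n ⊕ ZI n) ℝ => φ h) this

theorem chg2_inr (B : Matrix (Fin (n + 1)) (Fin (n + 1)) ℝ) (h : MvPolynomial (ZI n) ℝ) :
    chg2 B (rename Sum.inr h) = rename Sum.inr (chg B h) := by
  have : (chg2 B).comp (rename Sum.inr) =
      (rename (Sum.inr : ZI n → ZI n ⊕ ZI n)).comp (chg B) := by
    refine algHom_ext fun i => ?_
    rw [AlgHom.comp_apply, AlgHom.comp_apply, rename_X, chg_X]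
    unfold chg2
    rw [aeval_X, Sum.elim_inr]
  exact congrArg (fun φ : MvPolynomial (ZI n) ℝ →ₐ[ℝ] MvPolynomial (ZI n ⊕ ZI n) ℝ => φ h) this

/-- **[AD] on the triple family.**  `E` the uniform set of edges, `f` its triple system, [GOOD] at
`e`; `δ` any derivation of the reals killing the coordinates of the points.  The contraction of
the germ ideal to `ℝ[s, r]` is stable under the coefficientwise `δ` in the coordinates
`(x, x'; y, y')`. -/
theorem triple_cD_mem (δ : Derivation k ℝ ℝ) {B : Matrix (Fin (n + 1)) (Fin (n + 1)) ℝ}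
    (hB : B * B.transpose = 1) (E : Finset (ZZ n × ZZ n))
    (hE0 : ∀ e ∈ E, e.1.1 0 ≠ e.2.1 0)
    (hEc : ∀ e ∈ E, ∃ s r : ZZ n, e.1 = zB B s ∧ e.2 = zB B r ∧ (∀ j, δ (s.1 j) = 0) ∧
      (∀ j, δ (s.2 j) = 0) ∧ (∀ j, δ (r.1 j) = 0) ∧ ∀ j, δ (r.2 j) = 0)
    (w : TI n → ℕ) (hw1 : ∀ x, w x ≠ 0) {M : ℕ} (hw : ∀ x, w x ≤ M)
    {c : ℕ} (f : Fin c → MvPolynomial (TI n) ℝ) {N : ℕ} (hfV : ∀ i, f i ∈ Vw ℝ w N)
    (hf0 : ∀ e ∈ E, ∀ i, eval (edgePt e.1 e.2) (f i) = 0) {e : ZZ n × ZZ n} (he : e ∈ E)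
    (hind : LinearIndependent ℝ (fun i => grad (edgePt e.1 e.2) (f i)))
    (hgood : ∀ F ∈ Vw ℝ w (N + 3 * M), (∀ e' ∈ E, eval (edgePt e'.1 e'.2) F = 0) →
      F ∈ germ (edgePt e.1 e.2) f)
    {h : MvPolynomial (ZI n ⊕ ZI n) ℝ}
    (hh : rename (Sum.inr : ZI n ⊕ ZI n → TI n) (chg2 B h) ∈ germ (edgePt e.1 e.2) f) :
    rename (Sum.inr : ZI n ⊕ ZI n → TI n) (chg2 B (cD δ h)) ∈ germ (edgePt e.1 e.2) f := by
  set O : Matrix (Fin (n + 1)) (Fin (n + 1)) ℝ := B.map δ * B.transpose with hO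
  have hDB : B.map δ = O * B := der_eq_mul δ hB
  have hOs : O.transpose = -O := der_skew δ hB
  have hmove : ∀ e' ∈ E, ∀ x, eval (edgePt e'.1 e'.2) (muT n) *
      δ (edgePt e'.1 e'.2 x) = eval (edgePt e'.1 e'.2) (GT O x) := by
    intro e' he' x
    obtain ⟨s, r, hs, hr, h1, h2, h3, h4⟩ := hEc e' he'
    refine eval_GT δ O e'.1 e'.2 (fun i => ?_) (fun i => ?_) (hE0 e' he') x
    · rw [hs]
      exact der_zB δ B O hDB s h1 h2 i
    · rw [hr]
      exact der_zB δ B O hDB r h3 h4 i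
  have hf : ∀ i, dM δ (muT n) (GT O) (f i) ∈ germ (edgePt e.1 e.2) f := by
    intro i
    refine dM_mem_germ_of_good (isFilt_Vw w hw1) δ (muT n) (GT O)
      (fun i m F hF => Vw_mono _ (Nat.sub_le _ _) (pderiv_mem_Vw _ hF i))
      (fun m F hF => cD_mem_Vw δ _ hF) (δ := 3 * M) (Vw_mono _ (by omega) (muT_mem w hw))
      (GT_mem O w hw) (E := {e' : ZZ n × ZZ n | e' ∈ E})
      (pt := fun e' => edgePt e'.1 e'.2) (fun e' he' x => hmove e' he' x) f
      (N := N) hfV (fun e' he' i => hf0 e' he' i) ?_ i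
    intro F hF hF0
    exact hgood F hF fun e' h1 => hF0 e' h1
  have hmu : eval (edgePt e.1 e.2) (muT n) ≠ 0 := by
    rw [eval_muT]
    exact sub_ne_zero.2 (hE0 e he)
  refine cD_mem_comap' (hf0 e he) hind (hmove e he) hmu hf
    ((rename (Sum.inr : ZI n ⊕ ZI n → TI n)).comp (chg2 B)) (h := h) (fun b => ?_) hh
  rw [AlgHom.comp_apply]
  have h5 : ∀ i, GT O (js n (Sum.inl i)) = - (muT n * rotJ O (js n) i) := fun i => rfl
  have h6 : ∀ i, GT O (js n (Sum.inr i)) = muT n * rotJ O (js n) i := fun i => rfl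
  have h7 : ∀ i, GT O (jr n (Sum.inl i)) = - (muT n * rotJ O (jr n) i) := fun i => rfl
  have h8 : ∀ i, GT O (jr n (Sum.inr i)) = muT n * rotJ O (jr n) i := fun i => rfl
  rcases b with b | b
  · have h9 : rename (Sum.inr : ZI n ⊕ ZI n → TI n) (chg2 B (X (Sum.inl b))) =
        rename (js n) (yP B b) := by
      unfold chg2
      rw [aeval_X, Sum.elim_inl, rename_rename]
      rfl
    rw [h9]
    exact dM_yP_block δ B O hDB hOs (muT n) (GT O) (js n) h5 h6 b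
  · have h9 : rename (Sum.inr : ZI n ⊕ ZI n → TI n) (chg2 B (X (Sum.inr b))) =
        rename (jr n) (yP B b) := by
      unfold chg2
      rw [aeval_X, Sum.elim_inr, rename_rename]
      rfl
    rw [h9]
    exact dM_yP_block δ B O hDB hOs (muT n) (GT O) (jr n) h7 h8 b

/-- the same for the block of `r` alone -/
theorem triple_cD_mem_r (δ : Derivation k ℝ ℝ) {B : Matrix (Fin (n + 1)) (Fin (n + 1)) ℝ}
    (hB : B * B.transpose = 1) (E : Finset (ZZ n × ZZ n))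
    (hE0 : ∀ e ∈ E, e.1.1 0 ≠ e.2.1 0)
    (hEc : ∀ e ∈ E, ∃ s r : ZZ n, e.1 = zB B s ∧ e.2 = zB B r ∧ (∀ j, δ (s.1 j) = 0) ∧
      (∀ j, δ (s.2 j) = 0) ∧ (∀ j, δ (r.1 j) = 0) ∧ ∀ j, δ (r.2 j) = 0)
    (w : TI n → ℕ) (hw1 : ∀ x, w x ≠ 0) {M : ℕ} (hw : ∀ x, w x ≤ M)
    {c : ℕ} (f : Fin c → MvPolynomial (TI n) ℝ) {N : ℕ} (hfV : ∀ i, f i ∈ Vw ℝ w N)
    (hf0 : ∀ e ∈ E, ∀ i, eval (edgePt e.1 e.2) (f i) = 0) {e : ZZ n × ZZ n} (he : e ∈ E)
    (hind : LinearIndependent ℝ (fun i => grad (edgePt e.1 e.2) (f i)))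
    (hgood : ∀ F ∈ Vw ℝ w (N + 3 * M), (∀ e' ∈ E, eval (edgePt e'.1 e'.2) F = 0) →
      F ∈ germ (edgePt e.1 e.2) f)
    {h : MvPolynomial (ZI n) ℝ}
    (hh : rename (jr n) (chg B h) ∈ germ (edgePt e.1 e.2) f) :
    rename (jr n) (chg B (cD δ h)) ∈ germ (edgePt e.1 e.2) f := by
  have h1 : ∀ h : MvPolynomial (ZI n) ℝ, rename (jr n) (chg B h) =
      rename (Sum.inr : ZI n ⊕ ZI n → TI n) (chg2 B (rename Sum.inr h)) := by
    intro h
    rw [chg2_inr, rename_rename]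
    rfl
  rw [h1] at hh ⊢
  rw [← cD_rename]
  exact triple_cD_mem δ hB E hE0 hEc w hw1 hw f hfV hf0 he hind hgood hh

/-- the same for the block of `s` alone -/
theorem triple_cD_mem_s (δ : Derivation k ℝ ℝ) {B : Matrix (Fin (n + 1)) (Fin (n + 1)) ℝ}
    (hB : B * B.transpose = 1) (E : Finset (ZZ n × ZZ n))
    (hE0 : ∀ e ∈ E, e.1.1 0 ≠ e.2.1 0)
    (hEc : ∀ e ∈ E, ∃ s r : ZZ n, e.1 = zB B s ∧ e.2 = zB B r ∧ (∀ j, δ (s.1 j) = 0) ∧
      (∀ j, δ (s.2 j) = 0) ∧ (∀ j, δ (r.1 j) = 0) ∧ ∀ j, δ (r.2 j) = 0)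
    (w : TI n → ℕ) (hw1 : ∀ x, w x ≠ 0) {M : ℕ} (hw : ∀ x, w x ≤ M)
    {c : ℕ} (f : Fin c → MvPolynomial (TI n) ℝ) {N : ℕ} (hfV : ∀ i, f i ∈ Vw ℝ w N)
    (hf0 : ∀ e ∈ E, ∀ i, eval (edgePt e.1 e.2) (f i) = 0) {e : ZZ n × ZZ n} (he : e ∈ E)
    (hind : LinearIndependent ℝ (fun i => grad (edgePt e.1 e.2) (f i)))
    (hgood : ∀ F ∈ Vw ℝ w (N + 3 * M), (∀ e' ∈ E, eval (edgePt e'.1 e'.2) F = 0) →
      F ∈ germ (edgePt e.1 e.2) f)
    {h : MvPolynomial (ZI n) ℝ}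
    (hh : rename (js n) (chg B h) ∈ germ (edgePt e.1 e.2) f) :
    rename (js n) (chg B (cD δ h)) ∈ germ (edgePt e.1 e.2) f := by
  have h1 : ∀ h : MvPolynomial (ZI n) ℝ, rename (js n) (chg B h) =
      rename (Sum.inr : ZI n ⊕ ZI n → TI n) (chg2 B (rename Sum.inl h)) := by
    intro h
    rw [chg2_inl, rename_rename]
    rfl
  rw [h1] at hh ⊢
  rw [← cD_rename]
  exact triple_cD_mem δ hB E hE0 hEc w hw1 hw f hfV hf0 he hind hgood hh

end Vale.Agent.P054.T2.H441
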