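import Vale.Agent.P054.T2.H441.StabEz
import Vale.Agent.P054.T2.H794.Leaves

/-!
# P054 / T2, (B-d): [DOM] ⊢ the primes of `r` and `s` of `Z⁺` are stable under the A-derivatives
-/

set_option linter.unusedSectionVars false
set_option linter.unusedVariables false

open MvPolynomial

namespace Vale.Agent.P054.T2.H441

open Vale.Agent.P054.T2.H686 Vale.Agent.P054.T2.H580 Vale.Agent.P054.T2.SecC
open Vale.Agent.P054.T2.H930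
open Vale.Agent.P054.T2.H588 (mat mat_orth KK GI kP KK_kP OverK)
open Vale.Agent.P054.T2.H431 (constF mem_constF)
open Vale.Agent.P054.T2.H307 (wB FI Ed cA JA NN xF xT IsUnif IsFam van mem_van)
open Vale.Agent.P054.T2.H794

variable {n : ℕ}

theorem rename_mem_Vw_gen {σ τ : Type*} (w : σ → ℕ) (w' : τ → ℕ) (ι : σ → τ)
    (hw : ∀ x, w' (ι x) = w x) {F : MvPolynomial σ ℝ} {m : ℕ} (hF : F ∈ Vw ℝ w m) :
    rename ι F ∈ Vw ℝ w' m := by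
  classical
  rw [mem_Vw] at hF ⊢
  intro d hd
  obtain ⟨u, rfl, hu⟩ := coeff_rename_ne_zero _ _ _ (MvPolynomial.mem_support_iff.1 hd)
  have h1 := hF u (MvPolynomial.mem_support_iff.2 hu)
  refine le_trans (le_of_eq ?_) h1
  rw [Finsupp.weight_apply, Finsupp.weight_apply, Finsupp.sum_mapDomain_index (by simp) (by
    intro a b c; rw [add_smul])]
  simp only [hw]

section Z

variable {E' E1 E2 : Finset (ZZ n × ZZ n)} {W N c₀ c₁ c₂ σ₁ σ₂ : ℕ}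
  (Z : ZData ℝ n E' E1 E2 (wB W) N c₀ c₁ c₂ σ₁ σ₂)

/-- the equations of `Z⁺` have weight `≤ N` in the triple filtration -/
theorem ZF_mem_Vw (i : Fin (c₀ + (c₁ + c₂))) : Z.F i ∈ Vw ℝ (wB W : TI n → ℕ) N := by
  have h0 : ∀ i, (rename Sum.inl (Z.f i) : MvPolynomial (TI n) ℝ) ∈ Vw ℝ (wB W : TI n → ℕ) N := by
    intro i
    have h1 := rename_mem_Vw_gen (wB W : Crd n ⊕ Pt n → ℕ) (wB W : TI n → ℕ) (j1 n)
      (fun x => by rcases x with x | x <;> rfl) (Z.f_mem i)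
    rw [rename_rename] at h1
    exact h1
  unfold ZData.F
  rcases sysZ_cases Z.f Z.h Z.h' i with ⟨j, hj⟩ | ⟨j, hj⟩ | ⟨j, hj⟩
  · rw [hj]; exact h0 j
  · rw [hj]
    exact rename_mem_Vw_gen (wB W : Crd n ⊕ Pt n → ℕ) (wB W : TI n → ℕ) (j1 n)
      (fun x => by rcases x with x | x <;> rfl) (Z.h_mem j)
  · rw [hj]
    exact rename_mem_Vw_gen (wB W : Crd n ⊕ Pt n → ℕ) (wB W : TI n → ℕ) (j2 n)
      (fun x => by rcases x with x | x <;> rfl) (Z.h'_mem j)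

variable {P : Finset (E n)} {B : E n ≃ₗᵢ[ℝ] E n} {C' c : ℕ} {e : ZZ n × ZZ n}
  {Ft : Fin c → MvPolynomial (TI n) ℝ}

theorem TGood.of_van (hB : Gm P B) (hn : 1 ≤ n) (hE : E' ⊆ Ez P B C') (hW : 1 ≤ W)
    (hvan : ∀ i, Ft i ∈ van xT E' (Vw ℝ (wB W) N))
    (hind : ∀ e ∈ E', LinearIndependent ℝ (fun i => grad (xT e) (Ft i))) (he : e ∈ E')
    (hgood : ∀ F ∈ Vw ℝ (wB W) (N + 3 * W),
      (∀ e' ∈ E', eval (edgePt e'.1 e'.2) F = 0) → F ∈ germ (edgePt e.1 e.2) Ft) :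
    TGood (kP P) B E' (wB W) W N c Ft e :=
  TGood.of_Ez hB hn hE hW (fun i => (mem_van.1 (hvan i)).1)
    (fun e he i => (mem_van.1 (hvan i)).2 e he) he (hind e he) hgood

/-- **[STAB] for `r` in `Z`-form.** -/
theorem Z_stab_r (he : e ∈ E2) (hB : Gm P B) (hn : 1 ≤ n) (hE : E' ⊆ Ez P B C') (hW : 1 ≤ W)
    (hvan : ∀ i, Ft i ∈ van xT E' (Vw ℝ (wB W) N))
    (hind : ∀ e ∈ E', LinearIndependent ℝ (fun i => grad (xT e) (Ft i)))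
    (hgood : ∀ F ∈ Vw ℝ (wB W) (N + 3 * W),
      (∀ e' ∈ E', eval (edgePt e'.1 e'.2) F = 0) → F ∈ germ (edgePt e.1 e.2) Ft)
    (hdom : (germ (edgePt e.1 e.2) Ft).comap (rename (R := ℝ) (j2 n)) ≤
      germ (hatPt e.2 (mu e.2 e.1)) (Fin.append (fun i => rename Sum.inl (Z.f i)) Z.h'))
    (D : Derivation (kP P) ℝ ℝ) (h : MvPolynomial (ZI n) ℝ)
    (hh : rename (jr n) (chg (mat B) h) ∈ germ (edgePt e.1 e.2) Z.F) :
    rename (jr n) (chg (mat B) (cD D h)) ∈ germ (edgePt e.1 e.2) Z.F := by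
  have T := TGood.of_van hB hn hE hW hvan hind (Z.mem0 he) hgood
  have hZV : ∀ i, Z.F i ∈ germ (edgePt e.1 e.2) Ft :=
    ZF_mem_T Z (Finset.Subset.refl _) T fun i => Vw_mono _ (Nat.le_add_right _ _) (ZF_mem_Vw Z i)
  have hiff := mem_T_iff_r Z he Ft hZV (fun G hG => hdom hG)
  have h1 := T.hstab_r (Pr := (germ (edgePt e.1 e.2) Z.F).comap (rename (R := ℝ) (jr n)))
    (fun G => hiff G) D h hh
  exact h1

/-- **[STAB] for `s` in `Z`-form.** -/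
theorem Z_stab_s (he : e ∈ E2) (hB : Gm P B) (hn : 1 ≤ n) (hE : E' ⊆ Ez P B C') (hW : 1 ≤ W)
    (hvan : ∀ i, Ft i ∈ van xT E' (Vw ℝ (wB W) N))
    (hind : ∀ e ∈ E', LinearIndependent ℝ (fun i => grad (xT e) (Ft i)))
    (hgood : ∀ F ∈ Vw ℝ (wB W) (N + 3 * W),
      (∀ e' ∈ E', eval (edgePt e'.1 e'.2) F = 0) → F ∈ germ (edgePt e.1 e.2) Ft)
    (hdom : (germ (edgePt e.1 e.2) Ft).comap (rename (R := ℝ) (j1 n)) ≤
      germ (hatPt e.1 (mu e.1 e.2)) (Fin.append (fun i => rename Sum.inl (Z.f i)) Z.h))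
    (D : Derivation (kP P) ℝ ℝ) (h : MvPolynomial (ZI n) ℝ)
    (hh : rename (js n) (chg (mat B) h) ∈ germ (edgePt e.1 e.2) Z.F) :
    rename (js n) (chg (mat B) (cD D h)) ∈ germ (edgePt e.1 e.2) Z.F := by
  have T := TGood.of_van hB hn hE hW hvan hind (Z.mem0 he) hgood
  have hZV : ∀ i, Z.F i ∈ germ (edgePt e.1 e.2) Ft :=
    ZF_mem_T Z (Finset.Subset.refl _) T fun i => Vw_mono _ (Nat.le_add_right _ _) (ZF_mem_Vw Z i)
  have hiff := mem_T_iff_s Z Ft hZV (fun G hG => hdom hG)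
  have h1 := T.hstab_s (Pr := (germ (edgePt e.1 e.2) Z.F).comap (rename (R := ℝ) (js n)))
    (fun G => hiff G) D h hh
  exact h1

end Z

/-- **the leaf [STAB]** (consequence of [DOM]) -/
def StabS (n : ℕ) : Prop := ForZ n fun b k₀ i₀ E' v E1 E2 c₀ c₁ c₂ σ₁ σ₂ v₁ v₂ Z =>
  ∀ (P : Finset (E n)) (B : E n ≃ₗᵢ[ℝ] E n) (C' : ℕ), Gm P B → 1 ≤ n → E' ⊆ Ez P B C' →
    (∃ Y ⊆ E', 64 * Y.card ≤ E'.card ∧ ∀ e ∈ E2, e ∉ Y → ∀ (D : Derivation (kP P) ℝ ℝ)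
      (h : MvPolynomial (ZI n) ℝ),
      rename (js n) (chg (mat B) h) ∈ germ (edgePt e.1 e.2) Z.F →
      rename (js n) (chg (mat B) (cD D h)) ∈ germ (edgePt e.1 e.2) Z.F) ∧
    (∃ Y ⊆ E', 64 * Y.card ≤ E'.card ∧ ∀ e ∈ E2, e ∉ Y → ∀ (D : Derivation (kP P) ℝ ℝ)
      (h : MvPolynomial (ZI n) ℝ),
      rename (jr n) (chg (mat B) h) ∈ germ (edgePt e.1 e.2) Z.F →
      rename (jr n) (chg (mat B) (cD D h)) ∈ germ (edgePt e.1 e.2) Z.F)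

theorem stabS_of_domS {n : ℕ} (hD : DomS n) : StabS n := by
  obtain ⟨C₀, q₀, hD⟩ := hD
  refine ⟨C₀, q₀, fun C hC q hq L K₀ => ?_⟩
  obtain ⟨β₀, hβ₀⟩ := hD C hC q hq L K₀
  refine ⟨β₀, fun β hβ k C₁ k₀ i₀ i₁ Wg E' v A E1 E2 c₀ c₁ c₂ σ₁ σ₂ v₁ v₂ Z hZ h1 h2 h3 P B C' hB
    hn hE => ?_⟩
  obtain ⟨⟨c, Ft, a1, a2, Y, hY, hYc, a3⟩, ⟨c', Ft', b1, b2, Y', hY', hYc', b3⟩⟩ :=
    hβ₀ β hβ k C₁ k₀ i₀ i₁ Wg E' v A E1 E2 c₀ c₁ c₂ σ₁ σ₂ v₁ v₂ Z hZ h1 h2 h3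
  have hW : 1 ≤ (β ^ L) ^ k₀ := Nat.one_le_pow _ _ A.hb.le
  refine ⟨⟨Y, hY, hYc, fun e he heY D h hh => ?_⟩, ⟨Y', hY', hYc', fun e he heY D h hh => ?_⟩⟩
  · exact Z_stab_s Z he hB hn hE hW a1 a2 (a3 e he heY).1 (a3 e he heY).2 D h hh
  · exact Z_stab_r Z he hB hn hE hW b1 b2 (b3 e he heY).1 (b3 e he heY).2 D h hh

end Vale.Agent.P054.T2.H441
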