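import Vale.Agent.P054.T2.H930.Germ3

/-!
# P054 / T2, leaf [AD]: the A-derivative lemma (board #15139 (A))

`D` is a derivation of the ring `L` of coefficients, `G i` polynomials.  `dG D G` is the derivation
of `L[X]` which is `D` on the coefficients and `G i` on `X i`.  If `D (p i) = G i (p)` then
`(dG D G h)(p) = D (h(p))`; hence `dG D G` preserves vanishing ideals of such points and germ
ideals.
-/

set_option linter.unusedSectionVars false

open MvPolynomial

namespace Vale.Agent.P054.T2.H441

section coeffwise

variable {σ L k : Type*} [CommRing k] [CommRing L] [Algebra k L]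

/-- apply `D` to the coefficients (as a function) -/
noncomputable def cDfun (D : Derivation k L L) (h : MvPolynomial σ L) : MvPolynomial σ L :=
  ∑ m ∈ h.support, monomial m (D (coeff m h))

lemma coeff_cDfun (D : Derivation k L L) (h : MvPolynomial σ L) (m : σ →₀ ℕ) :
    coeff m (cDfun D h) = D (coeff m h) := by
  classical
  unfold cDfun
  rw [coeff_sum]
  simp only [coeff_monomial]
  rw [Finset.sum_ite_eq']
  split_ifs with hm
  · rfl
  · rw [notMem_support_iff.1 hm, map_zero]

/-- apply `D` to the coefficients -/
noncomputable def cD (D : Derivation k L L) :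
    Derivation k (MvPolynomial σ L) (MvPolynomial σ L) :=
  Derivation.mk'
    { toFun := cDfun D
      map_add' := by
        intro a b
        ext m
        rw [coeff_add, coeff_cDfun, coeff_cDfun, coeff_cDfun, coeff_add, map_add]
      map_smul' := by
        intro c a
        ext m
        rw [RingHom.id_apply, coeff_smul, coeff_cDfun, coeff_cDfun, coeff_smul, D.map_smul] }
    (by
      classical
      intro a b
      show cDfun D (a * b) = a • cDfun D b + b • cDfun D a
      ext m
      rw [smul_eq_mul, smul_eq_mul, mul_comm b, coeff_cDfun, coeff_add, coeff_mul, coeff_mul,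
        coeff_mul, map_sum, ← Finset.sum_add_distrib]
      refine Finset.sum_congr rfl fun x _ => ?_
      rw [D.leibniz, coeff_cDfun, coeff_cDfun, smul_eq_mul, smul_eq_mul]
      ring)

lemma coeff_cD (D : Derivation k L L) (h : MvPolynomial σ L) (m : σ →₀ ℕ) :
    coeff m (cD D h) = D (coeff m h) := coeff_cDfun D h m

lemma cD_C (D : Derivation k L L) (a : L) : cD D (C a : MvPolynomial σ L) = C (D a) := by
  classical
  ext m
  rw [coeff_cD, coeff_C, coeff_C]
  split_ifs
  · rfl
  · exact map_zero D

lemma cD_X (D : Derivation k L L) (i : σ) : cD D (X i : MvPolynomial σ L) = 0 := by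
  classical
  ext m
  rw [coeff_cD, coeff_X, coeff_zero]
  split_ifs
  · exact D.map_one_eq_zero
  · exact map_zero D

lemma support_cD_subset (D : Derivation k L L) (h : MvPolynomial σ L) :
    (cD D h).support ⊆ h.support := by
  intro m hm
  rw [mem_support_iff] at hm ⊢
  intro h0
  rw [coeff_cD, h0, map_zero] at hm
  exact hm rfl

lemma totalDegree_cD_le (D : Derivation k L L) (h : MvPolynomial σ L) :
    (cD D h).totalDegree ≤ h.totalDegree :=
  Finset.sup_mono (support_cD_subset D h)

lemma cD_rename {β : Type*} (D : Derivation k L L) (ι : β → σ) (h : MvPolynomial β L) :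
    cD D (rename ι h) = rename ι (cD D h) := by
  induction h using MvPolynomial.induction_on with
  | C a => rw [rename_C, cD_C, cD_C, rename_C]
  | add a b ha hb => rw [map_add, map_add, map_add, map_add, ha, hb]
  | mul_X a i ha =>
    rw [map_mul, rename_X, Derivation.leibniz, Derivation.leibniz, cD_X, cD_X, ha, smul_zero,
      smul_zero, zero_add, zero_add, smul_eq_mul, smul_eq_mul, map_mul, rename_X]

/-- the derivation which is `D` on coefficients and `G i` on `X i` -/
noncomputable def dG (D : Derivation k L L) (G : σ → MvPolynomial σ L) :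
    Derivation k (MvPolynomial σ L) (MvPolynomial σ L) :=
  cD D + (mkDerivation L G).restrictScalars k

lemma dG_apply (D : Derivation k L L) (G : σ → MvPolynomial σ L) (h : MvPolynomial σ L) :
    dG D G h = cD D h + mkDerivation L G h := rfl

@[simp] lemma dG_C (D : Derivation k L L) (G : σ → MvPolynomial σ L) (a : L) :
    dG D G (C a) = C (D a) := by
  rw [dG_apply, cD_C, derivation_C, add_zero]

@[simp] lemma dG_X (D : Derivation k L L) (G : σ → MvPolynomial σ L) (i : σ) :
    dG D G (X i) = G i := by
  rw [dG_apply, cD_X, mkDerivation_X, zero_add]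

/-- **(AD2).** -/
theorem eval_dG (D : Derivation k L L) (G : σ → MvPolynomial σ L) (p : σ → L)
    (hp : ∀ i, D (p i) = eval p (G i)) (h : MvPolynomial σ L) :
    eval p (dG D G h) = D (eval p h) := by
  induction h using MvPolynomial.induction_on with
  | C a => rw [dG_C, eval_C, eval_C]
  | add a b ha hb => rw [map_add, map_add, map_add, map_add, ha, hb]
  | mul_X a i ha =>
    rw [Derivation.leibniz, dG_X, smul_eq_mul, smul_eq_mul, map_add, map_mul, map_mul, eval_X,
      ha, map_mul, eval_X, Derivation.leibniz, hp, smul_eq_mul, smul_eq_mul]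

/-- `dG` on polynomials in a block of variables on which `G` vanishes -/
theorem dG_rename {β : Type*} (D : Derivation k L L) (G : σ → MvPolynomial σ L) (ι : β → σ)
    (hG : ∀ b, G (ι b) = 0) (h : MvPolynomial β L) :
    dG D G (rename ι h) = rename ι (cD D h) := by
  induction h using MvPolynomial.induction_on with
  | C a => rw [rename_C, dG_C, cD_C, rename_C]
  | add a b ha hb => rw [map_add, map_add, map_add, map_add, ha, hb]
  | mul_X a i ha =>
    rw [map_mul, rename_X, Derivation.leibniz, Derivation.leibniz, cD_X, dG_X, hG, ha, smul_zero,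
      smul_zero, zero_add, zero_add, smul_eq_mul, smul_eq_mul, map_mul, rename_X]

lemma der_sum_apply {R A M ι : Type*} [CommSemiring R] [CommSemiring A] [AddCommMonoid M]
    [Algebra R A] [Module A M] [Module R M] (s : Finset ι) (D : ι → Derivation R A M) (a : A) :
    (∑ i ∈ s, D i) a = ∑ i ∈ s, D i a := by
  classical
  induction s using Finset.induction_on with
  | empty => simp
  | insert i s hi ih => rw [Finset.sum_insert hi, Finset.sum_insert hi, Derivation.add_apply, ih]

/-- the L-linear part as a sum of partial derivatives -/
lemma mkDerivation_eq_sum [Fintype σ] (G : σ → MvPolynomial σ L) (h : MvPolynomial σ L) :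
    mkDerivation L G h = ∑ i, pderiv i h * G i := by
  classical
  have h1 : mkDerivation L G = ∑ i, G i • pderiv i := by
    refine derivation_ext fun i => ?_
    rw [mkDerivation_X, der_sum_apply]
    simp only [Derivation.smul_apply, pderiv_X, smul_eq_mul]
    rw [Finset.sum_eq_single i]
    · simp
    · intro j _ hj
      rw [Pi.single_eq_of_ne hj.symm, mul_zero]
    · intro h; exact absurd (Finset.mem_univ _) h
  rw [h1, der_sum_apply]
  refine Finset.sum_congr rfl fun i _ => ?_
  rw [Derivation.smul_apply, smul_eq_mul, mul_comm]

lemma dG_eq_sum [Fintype σ] (D : Derivation k L L) (G : σ → MvPolynomial σ L)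
    (h : MvPolynomial σ L) : dG D G h = cD D h + ∑ i, pderiv i h * G i := by
  rw [dG_apply, mkDerivation_eq_sum]

end coeffwise

section germs

variable {σ L k : Type*} [CommRing k] [Field L] [Algebra k L] [Fintype σ] [DecidableEq σ]

open Vale.Agent.P054.T2.H930

lemma dG_mem_mx {D : Derivation k L L} {G : σ → MvPolynomial σ L} {p : σ → L}
    (hp : ∀ i, D (p i) = eval p (G i)) {F : MvPolynomial σ L} (hF : F ∈ mx p) :
    dG D G F ∈ mx p := by
  rw [mem_mx] at hF ⊢
  rw [eval_dG D G p hp, hF, map_zero]

lemma dG_mem_mx_pow {D : Derivation k L L} {G : σ → MvPolynomial σ L} {p : σ → L}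
    (hp : ∀ i, D (p i) = eval p (G i)) (n : ℕ) {F : MvPolynomial σ L} (hF : F ∈ (mx p) ^ n) :
    dG D G F ∈ (mx p) ^ n := by
  induction n generalizing F with
  | zero => rw [pow_zero, Ideal.one_eq_top]; trivial
  | succ n ih =>
    rw [pow_succ] at hF ⊢
    induction hF using Submodule.mul_induction_on' with
    | mem_mul_mem a ha b hb =>
      rw [Derivation.leibniz, smul_eq_mul, smul_eq_mul]
      refine Ideal.add_mem _ (Ideal.mul_mem_mul ha (dG_mem_mx hp hb)) ?_
      rw [mul_comm b]
      exact Ideal.mul_mem_mul (ih ha) hb
    | add x _ y _ hx hy =>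
      rw [map_add]
      exact Ideal.add_mem _ hx hy

/-- **(AD3).** -/
theorem dG_mem_J {c : ℕ} {D : Derivation k L L} {G : σ → MvPolynomial σ L} {p : σ → L}
    {f : Fin c → MvPolynomial σ L} (hp : ∀ i, D (p i) = eval p (G i)) (n : ℕ)
    (hf : ∀ i, dG D G (f i) ∈ J p f n) {F : MvPolynomial σ L} (hF : F ∈ J p f n) :
    dG D G F ∈ J p f n := by
  obtain ⟨a, ha, b, hb, rfl⟩ := Submodule.mem_sup.1 hF
  rw [map_add]
  refine Ideal.add_mem _ ?_ (pow_le_J p f n (dG_mem_mx_pow hp n hb))
  clear hF
  induction ha using Submodule.span_induction with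
  | mem x hx => obtain ⟨i, rfl⟩ := hx; exact hf i
  | zero => rw [map_zero]; exact Ideal.zero_mem _
  | add x y _ _ hx hy => rw [map_add]; exact Ideal.add_mem _ hx hy
  | smul r x hxs hx =>
    rw [smul_eq_mul, Derivation.leibniz, smul_eq_mul, smul_eq_mul]
    refine Ideal.add_mem _ (Ideal.mul_mem_left _ _ hx) ?_
    exact Ideal.mul_mem_right _ _ (span_le_J p f n hxs)

/-- **(AD3)**: if `dG D G (f i)` vanishes on the germ for all `i` then `dG D G` maps the germ
ideal to itself. -/
theorem dG_mem_germ {c : ℕ} {D : Derivation k L L} {G : σ → MvPolynomial σ L} {p : σ → L}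
    {f : Fin c → MvPolynomial σ L} (hp : ∀ i, D (p i) = eval p (G i))
    (hf : ∀ i, dG D G (f i) ∈ germ p f) {F : MvPolynomial σ L} (hF : F ∈ germ p f) :
    dG D G F ∈ germ p f :=
  mem_germ.2 fun n => dG_mem_J hp n (fun i => mem_germ.1 (hf i) n) (mem_germ.1 hF n)

end germs

section constants

variable {L : Type*} [Field L]

/-- **(AD5), abstract form.** `M` is an `L`-module with coordinates `c`, the maps `δ D` act on
coordinates by `D`, where `D 0 = 0` and `D 1 = 0`.  A subspace stable under the `δ D` is spanned
by its vectors whose coordinates are killed by all `D`. -/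
theorem mem_span_const {ι M 𝔇 : Type*} [AddCommGroup M] [Module L M]
    (c : M →ₗ[L] (ι → L)) (hc : Function.Injective c)
    (hfin : ∀ x, (Function.support (c x)).Finite) (D : 𝔇 → L → L) (hD0 : ∀ a, D a 0 = 0)
    (hD1 : ∀ a, D a 1 = 0) (δ : 𝔇 → M → M) (hδ : ∀ a x i, c (δ a x) i = D a (c x i))
    (W : Submodule L M) (hW : ∀ a, ∀ x ∈ W, δ a x ∈ W) (x : M) (hx : x ∈ W) :
    x ∈ Submodule.span L {w | w ∈ W ∧ ∀ a i, D a (c w i) = 0} := by
  classical
  have key : ∀ S : Finset ι, ∀ x ∈ W, (∀ i, c x i ≠ 0 → i ∈ S) →
      x ∈ Submodule.span L {w | w ∈ W ∧ ∀ a i, D a (c w i) = 0} := by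
    intro S
    induction S using Finset.strongInduction with
    | H S ih =>
      intro x hx hxS
      by_cases h : ∃ v ∈ W, v ≠ 0 ∧ (∀ a i, D a (c v i) = 0) ∧ ∀ i, c v i ≠ 0 → i ∈ S
      · obtain ⟨v, hvW, hv0, hvD, hvS⟩ := h
        have : ∃ i, c v i ≠ 0 := by
          by_contra hcon
          push Not at hcon
          apply hv0
          apply hc
          rw [map_zero]
          funext i
          exact hcon i
        obtain ⟨i, hi⟩ := this
        have hy := ih (S.erase i) (Finset.erase_ssubset (hvS i hi))
          (x - (c x i / c v i) • v) (W.sub_mem hx (W.smul_mem _ hvW)) (by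
            intro j hj
            rw [map_sub, map_smul, Pi.sub_apply, Pi.smul_apply, smul_eq_mul] at hj
            rw [Finset.mem_erase]
            constructor
            · rintro rfl
              apply hj
              rw [div_mul_cancel₀ _ hi, sub_self]
            · by_contra hjS
              have h1 : c x j = 0 := by by_contra h1; exact hjS (hxS j h1)
              have h2 : c v j = 0 := by by_contra h2; exact hjS (hvS j h2)
              rw [h1, h2, mul_zero, sub_zero] at hj
              exact hj rfl)
        have h3 : x = (x - (c x i / c v i) • v) + (c x i / c v i) • v := by abel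
        rw [h3]
        exact Submodule.add_mem _ hy (Submodule.smul_mem _ _ (Submodule.subset_span ⟨hvW, hvD⟩))
      · push Not at h
        have hz : ∀ n : ℕ, ∀ z ∈ W, (∀ i, c z i ≠ 0 → i ∈ S) →
            (S.filter fun i => c z i ≠ 0).card ≤ n → z = 0 := by
          intro n
          induction n with
          | zero =>
            intro z _ hzS hcard
            apply hc
            rw [map_zero]
            funext i
            by_contra hi
            have : i ∈ S.filter fun i => c z i ≠ 0 := Finset.mem_filter.2 ⟨hzS i hi, hi⟩
            have h0 := Finset.card_eq_zero.1 (Nat.le_zero.1 hcard)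
            rw [h0] at this
            exact absurd this (Finset.notMem_empty _)
          | succ n ihn =>
            intro z hzW hzS hcard
            by_contra hz0
            have : ∃ j, c z j ≠ 0 := by
              by_contra hcon
              push Not at hcon
              apply hz0
              apply hc
              rw [map_zero]
              funext i
              exact hcon i
            obtain ⟨j, hj⟩ := this
            set z' := (c z j)⁻¹ • z with hz'
            have hz'c : ∀ i, c z' i = (c z j)⁻¹ * c z i := by
              intro i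
              rw [hz', map_smul, Pi.smul_apply, smul_eq_mul]
            have hz'W : z' ∈ W := W.smul_mem _ hzW
            have hconst : ∀ a, δ a z' = 0 := by
              intro a
              have hsupp : ∀ i, c (δ a z') i ≠ 0 → c z i ≠ 0 ∧ i ≠ j := by
                intro i hi
                rw [hδ, hz'c] at hi
                constructor
                · intro h0
                  rw [h0, mul_zero, hD0] at hi
                  exact hi rfl
                · rintro rfl
                  rw [inv_mul_cancel₀ hj, hD1] at hi
                  exact hi rfl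
              refine ihn _ (hW a z' hz'W) (fun i hi => hzS i (hsupp i hi).1) ?_
              have hsub : (S.filter fun i => c (δ a z') i ≠ 0) ⊆
                  (S.filter fun i => c z i ≠ 0).erase j := by
                intro i hi
                rw [Finset.mem_filter] at hi
                rw [Finset.mem_erase, Finset.mem_filter]
                exact ⟨(hsupp i hi.2).2, hi.1, (hsupp i hi.2).1⟩
              have hjm : j ∈ S.filter fun i => c z i ≠ 0 := Finset.mem_filter.2 ⟨hzS j hj, hj⟩
              have h1 := Finset.card_le_card hsub
              rw [Finset.card_erase_of_mem hjm] at h1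
              omega
            have hz'0 : z' ≠ 0 := by
              intro h0
              have := hz'c j
              rw [h0, map_zero, inv_mul_cancel₀ hj] at this
              exact zero_ne_one this
            obtain ⟨i, hi, hiS⟩ := h z' hz'W hz'0 (by
              intro a i
              rw [← hδ, hconst a, map_zero]
              rfl)
            apply hiS
            apply hzS
            intro h0
            rw [hz'c, h0, mul_zero] at hi
            exact hi rfl
        have := hz _ x hx hxS le_rfl
        rw [this]
        exact Submodule.zero_mem _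
  refine key (hfin x).toFinset x hx fun i hi => ?_
  rw [Set.Finite.mem_toFinset]
  exact hi

variable {k : Type*} [CommRing k] [Algebra k L]

/-- **(AD5) for polynomials.** -/
theorem mem_span_const_poly {β 𝔇 : Type*} (D : 𝔇 → Derivation k L L)
    (W : Submodule L (MvPolynomial β L)) (hW : ∀ a, ∀ h ∈ W, cD (D a) h ∈ W)
    (h : MvPolynomial β L) (hh : h ∈ W) :
    h ∈ Submodule.span L {w | w ∈ W ∧ ∀ a m, D a (coeff m w) = 0} := by
  let c : MvPolynomial β L →ₗ[L] ((β →₀ ℕ) → L) := LinearMap.pi fun m => lcoeff L m
  refine mem_span_const c ?_ ?_ (fun a => D a) (fun a => map_zero _)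
    (fun a => (D a).map_one_eq_zero) (fun a h => cD (D a) h) ?_ W hW h hh
  · intro a b hab
    ext m
    exact congrFun hab m
  · intro x
    refine (x.support.finite_toSet).subset ?_
    intro m hm
    rw [Finset.mem_coe, mem_support_iff]
    exact hm
  · intro a x m
    exact coeff_cD (D a) x m

/-- **(AD5) for `L^n`.** -/
theorem mem_span_const_pi {ι 𝔇 : Type*} [Finite ι] (D : 𝔇 → Derivation k L L)
    (W : Submodule L (ι → L)) (hW : ∀ a, ∀ v ∈ W, (fun i => D a (v i)) ∈ W)
    (v : ι → L) (hv : v ∈ W) :
    v ∈ Submodule.span L {w | w ∈ W ∧ ∀ a i, D a (w i) = 0} :=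
  mem_span_const (LinearMap.id) Function.injective_id (fun _ => Set.toFinite _) (fun a => D a)
    (fun _ => map_zero _) (fun a => (D a).map_one_eq_zero) (fun a v i => D a (v i))
    (fun _ _ _ => rfl) W hW v hv

end constants

end Vale.Agent.P054.T2.H441
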