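import Mathlib

/-!
# P054 / T2, leaf [G3] (686's germ lemma, board #15214 (1))

`h I n` is the dimension of the polynomials of degree at most `n` modulo `I`, `rkY Y n` the
dimension of their restrictions to the finite set `Y`.
-/

open MvPolynomial Module

namespace Vale.Agent.P054.T2.H441

variable {σ K : Type*} [Field K]

/-- Hilbert function of an ideal: dimension of `V_n` modulo `I`. -/
noncomputable def hF (I : Ideal (MvPolynomial σ K)) (n : ℕ) : ℕ :=
  finrank K ((restrictTotalDegree σ K n).map ((Ideal.Quotient.mkₐ K I).toLinearMap))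

/-- restriction of polynomials to a finite set of points, as an algebra map -/
noncomputable def resA (Y : Finset (σ → K)) : MvPolynomial σ K →ₐ[K] (Y → K) :=
  AlgHom.pi fun p => aeval (p : σ → K)

/-- rank of degree `≤ n` polynomials on `Y` -/
noncomputable def rkY (Y : Finset (σ → K)) (n : ℕ) : ℕ :=
  finrank K ((restrictTotalDegree σ K n).map (resA Y).toLinearMap)

lemma resA_apply (Y : Finset (σ → K)) (F : MvPolynomial σ K) (p : Y) :
    resA Y F p = eval (p : σ → K) F := by
  simp [resA, aeval_eq_eval]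

instance finiteDeg [Finite σ] (n : ℕ) : FiniteDimensional K (restrictTotalDegree σ K n) := by
  classical
  have : Fintype σ := Fintype.ofFinite σ
  have hsum : ∀ (s : σ →₀ ℕ), s.sum (fun _ e => e) ≤ n → ∀ i, s i < n + 1 := by
    intro s hs i
    rcases eq_or_ne (s i) 0 with h | h
    · omega
    · have := (Finset.single_le_sum (f := fun i => s i) (fun _ _ ↦ Nat.zero_le _) <|
        Finsupp.mem_support_iff.mpr h).trans hs
      omega
  let g : {s : σ →₀ ℕ | s.sum (fun _ e ↦ e) ≤ n} → (σ → Fin (n + 1)) :=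
    fun s i => ⟨s.1 i, hsum s.1 s.2 i⟩
  have hg : Function.Injective g := by
    intro s t h
    apply Subtype.ext
    ext i
    have := congrFun h i
    simpa [g] using this
  have : Finite {s : σ →₀ ℕ | s.sum (fun _ e ↦ e) ≤ n} := Finite.of_injective g hg
  exact Module.Finite.of_basis
    (basisRestrictSupport K {s : σ →₀ ℕ | s.sum (fun _ e ↦ e) ≤ n})

lemma mul_mem_deg {a b : ℕ} {f g : MvPolynomial σ K} (hf : f ∈ restrictTotalDegree σ K a)
    (hg : g ∈ restrictTotalDegree σ K b) : f * g ∈ restrictTotalDegree σ K (a + b) := by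
  rw [mem_restrictTotalDegree] at hf hg ⊢
  exact (totalDegree_mul _ _).trans (Nat.add_le_add hf hg)

lemma deg_mono {a b : ℕ} (h : a ≤ b) :
    restrictTotalDegree σ K a ≤ restrictTotalDegree σ K b := by
  intro f hf
  rw [mem_restrictTotalDegree] at hf ⊢
  exact hf.trans h

/-- linear algebra core -/
lemma core {A B : Type*} [AddCommGroup A] [Module K A] [AddCommGroup B] [Module K B]
    (H H' : Submodule K A) [FiniteDimensional K H] (m : A →ₗ[K] A)
    (hm : Function.Injective m) (hH : H'.map m ≤ H) (ψ : A →ₗ[K] B)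
    (hψ : ∀ x ∈ H', ψ (m x) = 0) :
    finrank K (H.map ψ) + finrank K H' ≤ finrank K H := by
  have h1 := LinearMap.finrank_range_add_finrank_ker (ψ.domRestrict H)
  rw [LinearMap.range_domRestrict] at h1
  have h2 : finrank K H' = finrank K (H'.map m) :=
    LinearEquiv.finrank_eq (Submodule.equivMapOfInjective m hm H')
  have h3 : finrank K (H'.map m) = finrank K ((H'.map m).comap H.subtype) :=
    (LinearEquiv.finrank_eq (Submodule.comapSubtypeEquivOfLe hH)).symm
  have h4 : (H'.map m).comap H.subtype ≤ LinearMap.ker (ψ.domRestrict H) := by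
    intro x hx
    rw [Submodule.mem_comap] at hx
    obtain ⟨y, hy, hyx⟩ := hx
    rw [LinearMap.mem_ker, LinearMap.domRestrict_apply]
    have : (x : A) = m y := by rw [hyx]; rfl
    rw [this]
    exact hψ y hy
  have h5 := Submodule.finrank_mono h4
  omega

lemma hF_mono_deg [Finite σ] (I : Ideal (MvPolynomial σ K)) {a b : ℕ} (h : a ≤ b) :
    hF I a ≤ hF I b :=
  Submodule.finrank_mono (Submodule.map_mono (deg_mono h))

lemma rkY_mono_deg [Finite σ] (Y : Finset (σ → K)) {a b : ℕ} (h : a ≤ b) :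
    rkY Y a ≤ rkY Y b :=
  Submodule.finrank_mono (Submodule.map_mono (deg_mono h))

/-- (1) of [G3]. -/
theorem rkY_add_hF_le [Finite σ] (Y : Finset (σ → K)) (I : Ideal (MvPolynomial σ K))
    (hI : ∀ F ∈ I, ∀ p ∈ Y, eval p F = 0) {T n : ℕ} (hTn : T ≤ n)
    (f : MvPolynomial σ K) (hf : f.totalDegree ≤ T) (hfY : ∀ p ∈ Y, eval p f = 0)
    (hreg : ∀ g, f * g ∈ I → g ∈ I) :
    rkY Y n + hF I (n - T) ≤ hF I n := by
  classical
  have hker : ∀ a ∈ I, resA Y a = 0 := by
    intro a ha
    ext p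
    rw [resA_apply]
    exact hI a ha p p.2
  let ψ : (MvPolynomial σ K ⧸ I) →ₐ[K] (Y → K) := Ideal.Quotient.liftₐ I (resA Y) hker
  let m : (MvPolynomial σ K ⧸ I) →ₗ[K] (MvPolynomial σ K ⧸ I) :=
    LinearMap.mulLeft K (Ideal.Quotient.mkₐ K I f)
  have hm : Function.Injective m := by
    rw [injective_iff_map_eq_zero]
    intro x hx
    obtain ⟨g, rfl⟩ := Ideal.Quotient.mkₐ_surjective K I x
    have h1 : Ideal.Quotient.mkₐ K I (f * g) = 0 := by
      rw [map_mul]; exact hx
    rw [Ideal.Quotient.mkₐ_eq_mk, Ideal.Quotient.eq_zero_iff_mem] at h1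
    rw [Ideal.Quotient.mkₐ_eq_mk, Ideal.Quotient.eq_zero_iff_mem]
    exact hreg g h1
  have hfm : f ∈ restrictTotalDegree σ K T := (mem_restrictTotalDegree _ _ _).2 hf
  have hmap : (restrictTotalDegree σ K n).map (resA Y).toLinearMap =
      ((restrictTotalDegree σ K n).map (Ideal.Quotient.mkₐ K I).toLinearMap).map
        ψ.toLinearMap := by
    rw [← Submodule.map_comp]
    congr 1
  have := core ((restrictTotalDegree σ K n).map (Ideal.Quotient.mkₐ K I).toLinearMap)
    ((restrictTotalDegree σ K (n - T)).map (Ideal.Quotient.mkₐ K I).toLinearMap) m hm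
    (by
      rintro _ ⟨_, ⟨g, hg, rfl⟩, rfl⟩
      refine ⟨f * g, ?_, ?_⟩
      · have := mul_mem_deg hfm hg
        rwa [Nat.add_sub_cancel' hTn] at this
      · simp [m])
    ψ.toLinearMap
    (by
      rintro _ ⟨g, hg, rfl⟩
      have h2 : m ((Ideal.Quotient.mkₐ K I).toLinearMap g) =
          Ideal.Quotient.mkₐ K I (f * g) := by simp [m]
      rw [h2]
      show ψ (Ideal.Quotient.mkₐ K I (f * g)) = 0
      have h3 : ψ (Ideal.Quotient.mkₐ K I (f * g)) = resA Y (f * g) := rfl
      rw [h3]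
      ext p
      rw [resA_apply, map_mul, hfY p p.2, zero_mul]
      rfl)
  unfold rkY hF
  rw [hmap]
  exact this

/-- (2) of [G3]: telescoping. -/
theorem mul_rkY_le [Finite σ] (Y : Finset (σ → K)) (I : Ideal (MvPolynomial σ K))
    (hI : ∀ F ∈ I, ∀ p ∈ Y, eval p F = 0) {T : ℕ}
    (f : MvPolynomial σ K) (hf : f.totalDegree ≤ T) (hfY : ∀ p ∈ Y, eval p f = 0)
    (hreg : ∀ g, f * g ∈ I → g ∈ I) (T' J : ℕ) :
    J * rkY Y T' + hF I T' ≤ hF I (T' + J * T) := by
  induction J with
  | zero => simp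
  | succ J ih =>
    have h1 := rkY_add_hF_le Y I hI (T := T) (n := T' + (J + 1) * T)
      (by nlinarith [Nat.zero_le T']) f hf hfY hreg
    have h2 : T' + (J + 1) * T - T = T' + J * T := by
      rw [Nat.succ_mul]; omega
    rw [h2] at h1
    have h3 : rkY Y T' ≤ rkY Y (T' + (J + 1) * T) := rkY_mono_deg Y (Nat.le_add_right _ _)
    rw [Nat.succ_mul]
    omega

/-- a linear combination avoiding finitely many primes -/
lemma exists_avoid [Infinite K] (W : Submodule K (MvPolynomial σ K)) {ι : Type*} (Y : Finset ι)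
    (P : ι → Ideal (MvPolynomial σ K)) (hY : ∀ p ∈ Y, ∃ F ∈ W, F ∉ P p) :
    ∃ f ∈ W, ∀ p ∈ Y, f ∉ P p := by
  classical
  by_contra hcon
  push Not at hcon
  let S : Finset (Submodule K W) :=
    Y.image fun p => ((P p).restrictScalars K).comap W.subtype
  have hS : (⊤ : Submodule K W) ∉ S := by
    intro h
    obtain ⟨p, hp, hpt⟩ := Finset.mem_image.1 h
    obtain ⟨F, hFW, hFP⟩ := hY p hp
    apply hFP
    have : (⟨F, hFW⟩ : W) ∈ ((P p).restrictScalars K).comap W.subtype := by
      rw [hpt]; trivial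
    exact this
  apply Subspace.biUnion_ne_univ_of_top_notMem hS
  rw [Set.eq_univ_iff_forall]
  intro w
  obtain ⟨p, hp, hwp⟩ := hcon w w.2
  simp only [Set.mem_iUnion]
  exact ⟨((P p).restrictScalars K).comap W.subtype, Finset.mem_image_of_mem _ hp, hwp⟩

lemma reg_iInf {ι : Type*} (Y : Finset ι) (P : ι → Ideal (MvPolynomial σ K))
    (hP : ∀ p ∈ Y, (P p).IsPrime) (f : MvPolynomial σ K) (hf : ∀ p ∈ Y, f ∉ P p)
    (g : MvPolynomial σ K) (hg : f * g ∈ ⨅ p ∈ Y, P p) : g ∈ ⨅ p ∈ Y, P p := by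
  simp only [Ideal.mem_iInf] at hg ⊢
  intro p hp
  exact ((hP p hp).mem_or_mem (hg p hp)).resolve_left (hf p hp)

/-- **[G3].** `X` finite, `W` a space of polynomials of degree `≤ T` vanishing on `X`, `P p` a
prime inside the ideal of `p`, `Y` the points of `X` where `W` is not inside `P p`.  Then
`J * rank_{T'}(Y) ≤ h_{T' + J T}(⨅_{p ∈ Y} P p)`. -/
theorem g3 [Finite σ] [Infinite K] (X : Finset (σ → K))
    (P : (σ → K) → Ideal (MvPolynomial σ K)) (hP : ∀ p ∈ X, (P p).IsPrime)
    (hPe : ∀ p ∈ X, ∀ F ∈ P p, eval p F = 0) {T : ℕ}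
    (W : Submodule K (MvPolynomial σ K)) (hWT : ∀ F ∈ W, F.totalDegree ≤ T)
    (hWX : ∀ F ∈ W, ∀ p ∈ X, eval p F = 0)
    (Y : Finset (σ → K)) (hYX : Y ⊆ X) (hYW : ∀ p ∈ Y, ∃ F ∈ W, F ∉ P p) (T' J : ℕ) :
    J * rkY Y T' + hF (⨅ p ∈ Y, P p) T' ≤ hF (⨅ p ∈ Y, P p) (T' + J * T) := by
  obtain ⟨f, hfW, hfP⟩ := exists_avoid W Y P hYW
  refine mul_rkY_le Y _ ?_ f (hWT f hfW) (fun p hp => hWX f hfW p (hYX hp)) ?_ T' J
  · intro F hF p hp
    simp only [Ideal.mem_iInf] at hF
    exact hPe p (hYX hp) F (hF p hp)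
  · exact reg_iInf Y P (fun p hp => hP p (hYX hp)) f hfP

/-- rank of a union -/
lemma rkY_union_le [Finite σ] [DecidableEq (σ → K)] (Y Z : Finset (σ → K)) (n : ℕ) :
    rkY (Y ∪ Z) n ≤ rkY Y n + rkY Z n := by
  classical
  let r : (↥(Y ∪ Z) → K) →ₗ[K] (Y → K) × (Z → K) :=
    LinearMap.prod (LinearMap.pi fun p => LinearMap.proj ⟨p, Finset.mem_union_left _ p.2⟩)
      (LinearMap.pi fun p => LinearMap.proj ⟨p, Finset.mem_union_right _ p.2⟩)
  have hr : Function.Injective r := by
    rw [injective_iff_map_eq_zero]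
    intro x hx
    have h1 : ∀ p : Y, x ⟨p, Finset.mem_union_left _ p.2⟩ = 0 := fun p =>
      congrFun (congrArg Prod.fst hx) p
    have h2 : ∀ p : Z, x ⟨p, Finset.mem_union_right _ p.2⟩ = 0 := fun p =>
      congrFun (congrArg Prod.snd hx) p
    ext p
    rcases Finset.mem_union.1 p.2 with h | h
    · exact h1 ⟨p, h⟩
    · exact h2 ⟨p, h⟩
  have h1 : ((restrictTotalDegree σ K n).map (resA (Y ∪ Z)).toLinearMap).map r ≤
      ((restrictTotalDegree σ K n).map (resA Y).toLinearMap).prod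
        ((restrictTotalDegree σ K n).map (resA Z).toLinearMap) := by
    rintro _ ⟨_, ⟨F, hF, rfl⟩, rfl⟩
    exact ⟨⟨F, hF, rfl⟩, ⟨F, hF, rfl⟩⟩
  have h2 := Submodule.finrank_mono h1
  have h3 : finrank K (((restrictTotalDegree σ K n).map (resA (Y ∪ Z)).toLinearMap).map r) =
      rkY (Y ∪ Z) n :=
    (LinearEquiv.finrank_eq (Submodule.equivMapOfInjective r hr _)).symm
  have h4 : finrank K (((restrictTotalDegree σ K n).map (resA Y).toLinearMap).prod
        ((restrictTotalDegree σ K n).map (resA Z).toLinearMap) :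
        Submodule K ((Y → K) × (Z → K))) = rkY Y n + rkY Z n := by
    let e : (((restrictTotalDegree σ K n).map (resA Y).toLinearMap).prod
        ((restrictTotalDegree σ K n).map (resA Z).toLinearMap)) ≃ₗ[K]
        ((restrictTotalDegree σ K n).map (resA Y).toLinearMap) ×
          ((restrictTotalDegree σ K n).map (resA Z).toLinearMap) :=
      { toFun := fun x => (⟨x.1.1, x.2.1⟩, ⟨x.1.2, x.2.2⟩)
        invFun := fun x => ⟨(x.1.1, x.2.1), x.1.2, x.2.2⟩
        left_inv := fun _ => rfl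
        right_inv := fun _ => rfl
        map_add' := fun _ _ => rfl
        map_smul' := fun _ _ => rfl }
    rw [e.finrank_eq]
    exact finrank_prod
  omega

end Vale.Agent.P054.T2.H441
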