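import Vale.Agent.P054.T2.H441.AGeo

/-!
# P054 / T2, leaf [AG], part 3: the prime of `r` on the hat leaf germ is defined over the constants
-/

set_option linter.unusedSectionVars false

open MvPolynomial

namespace Vale.Agent.P054.T2.H441

open Vale.Agent.P054.T2.H686 Vale.Agent.P054.T2.H580 Vale.Agent.P054.T2.SecC
open Vale.Agent.P054.T2.H930 (germ mx grad J)

variable {n : ℕ} {k : Type*} [CommRing k] [Algebra k ℝ]

theorem rename_inl_mem_Vw {W : ℕ} {F : MvPolynomial (Fin n) ℝ} {m : ℕ} (hF : F.totalDegree ≤ m) :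
    (rename Sum.inl F : MvPolynomial (HL n) ℝ) ∈ Vw ℝ (wt W) m := by
  classical
  rw [mem_Vw]
  intro d hd
  rw [support_rename_of_injective Sum.inl_injective, Finset.mem_image] at hd
  obtain ⟨d', hd', rfl⟩ := hd
  have h1 : d'.sum (fun _ e => e) ≤ m := (le_totalDegree hd').trans hF
  refine le_trans (le_of_eq ?_) h1
  rw [Finsupp.weight_apply, Finsupp.sum_mapDomain_index (by simp) (by
    intro a b c; simp [add_mul])]
  simp [wt]

theorem zdP_mem (s : ZZ n) (W : ℕ) (i : Fin (n + 1)) : zdP s i ∈ Vw ℝ (wt W) W := by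
  unfold zdP
  refine Submodule.sub_mem _ (C_mem_Vw _ _ _) ?_
  have := X_mem_Vw (k := ℝ) (wt (n := n) W) (Sum.inr (Sum.inl i))
  simpa [wt] using this

theorem rotP_mem (O : Matrix (Fin (n + 1)) (Fin (n + 1)) ℝ) (W : ℕ) (i : Fin (n + 1)) :
    rotP O i ∈ Vw ℝ (wt W) W := by
  unfold rotP
  refine Submodule.sum_mem _ fun l _ => ?_
  have h1 : (X (Sum.inr (Sum.inr l)) : MvPolynomial (HL n) ℝ) ∈ Vw ℝ (wt W) W := by
    have := X_mem_Vw (k := ℝ) (wt (n := n) W) (Sum.inr (Sum.inr l))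
    simpa [wt] using this
  have h2 : (X (Sum.inr (Sum.inl l)) : MvPolynomial (HL n) ℝ) ∈ Vw ℝ (wt W) W := by
    have := X_mem_Vw (k := ℝ) (wt (n := n) W) (Sum.inr (Sum.inl l))
    simpa [wt] using this
  have h3 := mul_mem_Vw (wt (n := n) W) (C_mem_Vw (k := ℝ) (wt (n := n) W) (O i l) 0)
    (mul_mem_Vw (wt (n := n) W) (Submodule.sub_mem _ h1 h2) (C_mem_Vw _ (1 / 2 : ℝ) 0))
  simpa using h3

theorem dzdP_mem (D : Derivation k ℝ ℝ) (s : ZZ n) (O : Matrix (Fin (n + 1)) (Fin (n + 1)) ℝ)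
    (W : ℕ) (i : Fin (n + 1)) : dzdP D s O i ∈ Vw ℝ (wt W) W := by
  unfold dzdP
  exact Submodule.add_mem _ (C_mem_Vw _ _ _) (rotP_mem O W i)

theorem GP_mem (D : Derivation k ℝ ℝ) (s : ZZ n) (O : Matrix (Fin (n + 1)) (Fin (n + 1)) ℝ)
    {W : ℕ} (hW : 1 ≤ W) (x : HL n) : GP D s O x ∈ Vw ℝ (wt W) (2 * W) := by
  rcases x with i | i | i
  · unfold GP
    refine Submodule.sub_mem _ (Vw_mono _ (by omega) (dzdP_mem D s O W _)) ?_
    have h1 : (X (Sum.inl i) : MvPolynomial (HL n) ℝ) ∈ Vw ℝ (wt W) 1 := by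
      have := X_mem_Vw (k := ℝ) (wt (n := n) W) (Sum.inl i)
      simpa [wt] using this
    exact Vw_mono _ (by omega) (mul_mem_Vw _ h1 (dzdP_mem D s O W 0))
  · unfold GP
    refine Submodule.neg_mem _ ?_
    rw [two_mul]
    exact mul_mem_Vw _ (zdP_mem s W 0) (rotP_mem O W i)
  · unfold GP
    rw [two_mul]
    exact mul_mem_Vw _ (zdP_mem s W 0) (rotP_mem O W i)

theorem isFilt_wt {W : ℕ} (hW : 1 ≤ W) : IsFilt (Vw ℝ (wt (n := n) W)) :=
  isFilt_Vw _ (wt_ne hW)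

/-- **[AG], `Side` form.**  `E` is the (uniform) set of edges on which the systems vanish and for
which [GOOD] holds at `e`; `δ` is any derivation of the reals killing the coordinates of the
points.  Then the prime `S.Pr e` is stable under the coefficientwise `δ` in the coordinates
`(y, y')`. -/
theorem side_cD_mem {A : Finset (ZZ n × ZZ n)} {W D σ v : ℕ} (S : Side n A W D σ v)
    (δ : Derivation k ℝ ℝ) {B : Matrix (Fin (n + 1)) (Fin (n + 1)) ℝ}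
    (hB : B * B.transpose = 1) (E : Finset (ZZ n × ZZ n)) {e : ZZ n × ZZ n} (heA : e ∈ A)
    (heE : e ∈ E) (hE0 : ∀ e' ∈ E, e'.1 = e.1 → e'.1.1 0 ≠ e'.2.1 0)
    (hEc : ∀ e' ∈ E, e'.1 = e.1 → ∃ r : ZZ n, e'.2 = zB B r ∧ (∀ j, δ (r.1 j) = 0) ∧
      ∀ j, δ (r.2 j) = 0)
    (hzE : ∀ e' ∈ E, e'.1 = e.1 → ∀ i, eval (hx e'.1 e'.2) (S.F e.1 i) = 0)
    (hgood : ∀ F ∈ Vw ℝ (wt W) (D * W + 2 * W),
      (∀ e' ∈ E, e'.1 = e.1 → eval (hx e'.1 e'.2) F = 0) → F ∈ S.P e)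
    {h : MvPolynomial (ZI n) ℝ} (hh : chg B h ∈ S.Pr e) : chg B (cD δ h) ∈ S.Pr e := by
  have hD := S.hD
  have hW := S.hW
  set O : Matrix (Fin (n + 1)) (Fin (n + 1)) ℝ := B.map δ * B.transpose with hO
  have hDB : B.map δ = O * B := der_eq_mul δ hB
  have hOs : O.transpose = -O := der_skew δ hB
  have hFV : ∀ i, S.F e.1 i ∈ Vw ℝ (wt W) (D * W) := by
    intro i
    refine Fin.addCases (fun i => ?_) (fun j => ?_) i
    · rw [S.hleft]
      exact Vw_mono _ (by nlinarith) (rename_inl_mem_Vw (S.hfdeg e.1 i))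
    · exact S.hFdeg e.1 j
  have hmove : ∀ e' ∈ E, e'.1 = e.1 → ∀ x, eval (hx e'.1 e'.2) (zdP e.1 0) *
      δ (hx e'.1 e'.2 x) = eval (hx e'.1 e'.2) (GP δ e.1 O x) := by
    intro e' he' h1 x
    obtain ⟨r, hr, hr1, hr2⟩ := hEc e' he' h1
    have h2 := hE0 e' he' h1
    rw [h1] at h2 ⊢
    refine eval_GP δ O e.1 e'.2 (fun i => ?_) h2 x
    rw [hr]
    exact der_zB δ B O hDB r hr1 hr2 i
  have hf : ∀ i, dM δ (zdP e.1 0) (GP δ e.1 O) (S.F e.1 i) ∈ germ (hx e.1 e.2) (S.F e.1) := by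
    intro i
    refine dM_mem_germ_of_good (isFilt_wt hW) δ (zdP e.1 0) (GP δ e.1 O)
      (fun i m F hF => Vw_mono _ (Nat.sub_le _ _) (pderiv_mem_Vw _ hF i))
      (fun m F hF => cD_mem_Vw δ _ hF) (δ := 2 * W) (Vw_mono _ (by omega) (zdP_mem e.1 W 0))
      (GP_mem δ e.1 O hW) (E := {e' : ZZ n × ZZ n | e' ∈ E ∧ e'.1 = e.1})
      (pt := fun e' => hx e'.1 e'.2) (fun e' he' x => hmove e' he'.1 he'.2 x) (S.F e.1)
      (N := D * W) hFV (fun e' he' i => hzE e' he'.1 he'.2 i) ?_ i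
    intro F hF hF0
    exact hgood F hF fun e' h1 h2 => hF0 e' ⟨h1, h2⟩
  have h0 : ∀ x, eval (hx e.1 e.2) (zdP e.1 0) * δ (hx e.1 e.2 x) =
      eval (hx e.1 e.2) (GP δ e.1 O x) := fun x => hmove e heE rfl x
  have hmu : eval (hx e.1 e.2) (zdP e.1 0) ≠ 0 := by
    rw [eval_zdP]
    exact sub_ne_zero.2 (hE0 e heE rfl)
  have key := cD_mem_comap' (S.hzero e heA) (S.hind e heA) h0 hmu hf
    ((rename (Sum.inr : ZI n → HL n)).comp (chg B)) (h := h) (fun b => by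
      rw [AlgHom.comp_apply, chg_X]
      exact dM_yP δ B O hDB hOs e.1 b) hh
  exact key

/-- **[AG], span form**: `S.Pr e` in the coordinates `(y, y')` is spanned, inside every
finite-dimensional subspace `U` stable under the coefficientwise derivations, by polynomials with
constant coefficients. -/
theorem side_span {A : Finset (ZZ n × ZZ n)} {W D σ v : ℕ} (S : Side n A W D σ v)
    {𝔇 : Type*} (δ : 𝔇 → Derivation k ℝ ℝ) {B : Matrix (Fin (n + 1)) (Fin (n + 1)) ℝ}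
    (hB : B * B.transpose = 1) (E : Finset (ZZ n × ZZ n)) {e : ZZ n × ZZ n} (heA : e ∈ A)
    (heE : e ∈ E) (hE0 : ∀ e' ∈ E, e'.1 = e.1 → e'.1.1 0 ≠ e'.2.1 0)
    (hEc : ∀ e' ∈ E, e'.1 = e.1 → ∃ r : ZZ n, e'.2 = zB B r ∧ (∀ a j, δ a (r.1 j) = 0) ∧
      ∀ a j, δ a (r.2 j) = 0)
    (hzE : ∀ e' ∈ E, e'.1 = e.1 → ∀ i, eval (hx e'.1 e'.2) (S.F e.1 i) = 0)
    (hgood : ∀ F ∈ Vw ℝ (wt W) (D * W + 2 * W),
      (∀ e' ∈ E, e'.1 = e.1 → eval (hx e'.1 e'.2) F = 0) → F ∈ S.P e)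
    (U : Submodule ℝ (MvPolynomial (ZI n) ℝ)) (hU : ∀ a, ∀ w ∈ U, cD (δ a) w ∈ U)
    {h : MvPolynomial (ZI n) ℝ} (hh : chg B h ∈ S.Pr e) (hhU : h ∈ U) :
    h ∈ Submodule.span ℝ {w : MvPolynomial (ZI n) ℝ | chg B w ∈ S.Pr e ∧ w ∈ U ∧
      ∀ a m, δ a (coeff m w) = 0} := by
  let Q : Submodule ℝ (MvPolynomial (ZI n) ℝ) := (((S.Pr e).comap (chg B)).restrictScalars ℝ) ⊓ U
  have h1 := mem_span_const_poly δ Q (by
    intro a w hw
    exact ⟨side_cD_mem S (δ a) hB E heA heE hE0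
      (fun e' h1 h2 => by
        obtain ⟨r, hr, hr1, hr2⟩ := hEc e' h1 h2
        exact ⟨r, hr, hr1 a, hr2 a⟩) hzE hgood hw.1, hU a w hw.2⟩) h ⟨hh, hhU⟩
  refine Submodule.span_mono ?_ h1
  rintro w ⟨hw1, hw2⟩
  exact ⟨hw1.1, hw1.2, hw2⟩

end Vale.Agent.P054.T2.H441
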