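import Vale.Agent.P054.T2.H441.Stab
import Vale.Agent.P054.T2.H588.GenU
import Vale.Agent.P054.T2.H686.Setup
import Vale.Agent.P054.T2.H307.Fam

/-!
# P054 / T2: `TGood` for subsets of the actual edges `Ez P B C`, field `kP P`
-/

set_option linter.unusedSectionVars false

open MvPolynomial

namespace Vale.Agent.P054.T2.H441

open Vale.Agent.P054.T2.H686 Vale.Agent.P054.T2.H580 Vale.Agent.P054.T2.SecC
open Vale.Agent.P054.T2.H930
open Vale.Agent.P054.T2.H588 (mat mat_orth mat_mulVec KK GI ztL ztL_injective pv zt_eq kP KK_kP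
  OverK InK)
open Vale.Agent.P054.T2.H431 (constF mem_constF)
open Vale.Agent.P054.T2.H307 (wB)

variable {n : ℕ}

/-- elements of the base field are constants -/
theorem le_constF (k : Subfield ℝ) {x : ℝ} (hx : x ∈ k) : x ∈ constF k ℝ := fun D =>
  D.map_algebraMap (⟨x, hx⟩ : k)

theorem KK_constF {k : Subfield ℝ} {v : E n × E n} (h : KK k v) : KK (constF k ℝ) v :=
  ⟨fun i => le_constF k (h.1 i), fun i => le_constF k (h.2 i)⟩

theorem gi_constF {P : Finset (E n)} {B : E n ≃ₗᵢ[ℝ] E n} (hB : Gm P B) :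
    GI (constF (kP P) ℝ) B := hB.gi' _ fun _ hx D => hx D

/-- 588's `OverK` from the isometry form -/
theorem overK_of {k' : Subfield ℝ} {B : E n ≃ₗᵢ[ℝ] E n} {U : Submodule ℝ (ZZ n)}
    (h : ∃ S : Set (E n × E n), (∀ v ∈ S, KK k' v) ∧ U = Submodule.span ℝ (zt B '' S)) :
    OverK k' (mat B) U := by
  obtain ⟨S, hS, rfl⟩ := h
  refine ⟨pv '' S, ?_, ?_⟩
  · rintro _ ⟨v, hv, rfl⟩
    exact hS v hv
  · rw [← Set.image_comp]
    congr 1
    ext x
    constructor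
    · rintro ⟨v, hv, rfl⟩
      exact ⟨v, hv, zB_mat B v⟩
    · rintro ⟨v, hv, rfl⟩
      exact ⟨v, hv, (zB_mat B v).symm⟩

theorem Ez_pts {P : Finset (E n)} {B : E n ≃ₗᵢ[ℝ] E n} {C : ℕ} {e : ZZ n × ZZ n}
    (h : e ∈ Ez P B C) : ∃ s r : E n × E n, e.1 = zt B s ∧ e.2 = zt B r ∧
      KK (constF (kP P) ℝ) s ∧ KK (constF (kP P) ℝ) r := by
  obtain ⟨s, hs, r, hr, rfl, -⟩ := Ez_pairs h
  rw [Finset.mem_product] at hs hr
  exact ⟨s, r, rfl, rfl, KK_constF (KK_kP hs.1 hs.2), KK_constF (KK_kP hr.1 hr.2)⟩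

/-- **`TGood` for sets of actual edges**, weights `1 | W` -/
theorem TGood.of_Ez {P : Finset (E n)} {B : E n ≃ₗᵢ[ℝ] E n} (hB : Gm P B) (hn : 1 ≤ n) {C : ℕ}
    {𝓔 : Finset (ZZ n × ZZ n)} (hE : 𝓔 ⊆ Ez P B C) {W : ℕ} (hW : 1 ≤ W) {N' c : ℕ}
    {Ft : Fin c → MvPolynomial (TI n) ℝ} {e : ZZ n × ZZ n}
    (memV : ∀ i, Ft i ∈ Vw ℝ (wB W) N')
    (zero : ∀ e ∈ 𝓔, ∀ i, eval (edgePt e.1 e.2) (Ft i) = 0) (mem : e ∈ 𝓔)
    (ind : LinearIndependent ℝ (fun i => grad (edgePt e.1 e.2) (Ft i)))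
    (good : ∀ F ∈ Vw ℝ (wB W) (N' + 3 * W), (∀ e' ∈ 𝓔, eval (edgePt e'.1 e'.2) F = 0) →
      F ∈ germ (edgePt e.1 e.2) Ft) : TGood (kP P) B 𝓔 (wB W) W N' c Ft e where
  adj0 := fun e he => Ez_ne hB hn (hE he)
  pts := fun e he => Ez_pts (hE he)
  w_ne := fun x => by
    rcases x with x | x
    · simp [wB]
    · simp only [wB, Sum.elim_inr]; omega
  w_le := fun x => by
    rcases x with x | x
    · simpa [wB] using hW
    · simp [wB]
  memV := memV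
  zero := zero
  mem := mem
  ind := ind
  good := good

end Vale.Agent.P054.T2.H441
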