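import Vale.Agent.P054.T2.H441.ADeriv
import Vale.Agent.P054.T2.H686.Pairs

/-!
# P054 / T2, leaf [AD], twisted form and the explicit vector fields

`dM D μ G` is `μ D` on the coefficients and `G i` on `X i` (no denominators needed).
-/

set_option linter.unusedSectionVars false

open MvPolynomial

namespace Vale.Agent.P054.T2.H441

section twisted

variable {σ L k : Type*} [CommRing k] [CommRing L] [Algebra k L]

/-- the derivation which is `μ D` on coefficients and `G i` on `X i` -/
noncomputable def dM (D : Derivation k L L) (μ : MvPolynomial σ L) (G : σ → MvPolynomial σ L) :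
    Derivation k (MvPolynomial σ L) (MvPolynomial σ L) :=
  μ • cD D + (mkDerivation L G).restrictScalars k

lemma dM_apply (D : Derivation k L L) (μ : MvPolynomial σ L) (G : σ → MvPolynomial σ L)
    (h : MvPolynomial σ L) : dM D μ G h = μ * cD D h + mkDerivation L G h := rfl

lemma dM_C (D : Derivation k L L) (μ : MvPolynomial σ L) (G : σ → MvPolynomial σ L) (a : L) :
    dM D μ G (C a) = μ * C (D a) := by
  rw [dM_apply, cD_C, derivation_C, add_zero]

lemma dM_X (D : Derivation k L L) (μ : MvPolynomial σ L) (G : σ → MvPolynomial σ L) (i : σ) :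
    dM D μ G (X i) = G i := by
  rw [dM_apply, cD_X, mkDerivation_X, mul_zero, zero_add]

lemma dM_eq_sum [Fintype σ] (D : Derivation k L L) (μ : MvPolynomial σ L)
    (G : σ → MvPolynomial σ L) (h : MvPolynomial σ L) :
    dM D μ G h = μ * cD D h + ∑ i, pderiv i h * G i := by
  rw [dM_apply, mkDerivation_eq_sum]

theorem eval_dM (D : Derivation k L L) (μ : MvPolynomial σ L) (G : σ → MvPolynomial σ L)
    (p : σ → L) (hp : ∀ i, eval p μ * D (p i) = eval p (G i)) (h : MvPolynomial σ L) :
    eval p (dM D μ G h) = eval p μ * D (eval p h) := by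
  induction h using MvPolynomial.induction_on with
  | C a => rw [dM_C, map_mul, eval_C, eval_C]
  | add a b ha hb => rw [map_add, map_add, map_add, map_add, ha, hb, mul_add]
  | mul_X a i ha =>
    rw [Derivation.leibniz, dM_X, smul_eq_mul, smul_eq_mul, map_add, map_mul, map_mul, eval_X,
      ha, map_mul, eval_X, Derivation.leibniz, ← hp, smul_eq_mul, smul_eq_mul]
    ring

theorem dM_rename {β : Type*} (D : Derivation k L L) (μ : MvPolynomial σ L)
    (G : σ → MvPolynomial σ L) (ι : β → σ) (hG : ∀ b, G (ι b) = 0) (h : MvPolynomial β L) :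
    dM D μ G (rename ι h) = μ * rename ι (cD D h) := by
  have h1 : mkDerivation L G (rename ι h) = 0 := by
    induction h using MvPolynomial.induction_on with
    | C a => rw [rename_C, derivation_C]
    | add a b ha hb => rw [map_add, map_add, ha, hb, add_zero]
    | mul_X a i ha =>
      rw [map_mul, rename_X, Derivation.leibniz, mkDerivation_X, hG, ha, smul_zero, smul_zero,
        zero_add]
  rw [dM_apply, h1, add_zero, cD_rename]

end twisted

section germs

variable {σ L k : Type*} [CommRing k] [Field L] [Algebra k L] [Fintype σ] [DecidableEq σ]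

open Vale.Agent.P054.T2.H930

lemma dM_mem_mx {D : Derivation k L L} {μ : MvPolynomial σ L} {G : σ → MvPolynomial σ L}
    {p : σ → L} (hp : ∀ i, eval p μ * D (p i) = eval p (G i)) {F : MvPolynomial σ L}
    (hF : F ∈ mx p) : dM D μ G F ∈ mx p := by
  rw [mem_mx] at hF ⊢
  rw [eval_dM D μ G p hp, hF, map_zero, mul_zero]

lemma dM_mem_mx_pow {D : Derivation k L L} {μ : MvPolynomial σ L} {G : σ → MvPolynomial σ L}
    {p : σ → L} (hp : ∀ i, eval p μ * D (p i) = eval p (G i)) (n : ℕ) {F : MvPolynomial σ L}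
    (hF : F ∈ (mx p) ^ n) : dM D μ G F ∈ (mx p) ^ n := by
  induction n generalizing F with
  | zero => rw [pow_zero, Ideal.one_eq_top]; trivial
  | succ n ih =>
    rw [pow_succ] at hF ⊢
    induction hF using Submodule.mul_induction_on' with
    | mem_mul_mem a ha b hb =>
      rw [Derivation.leibniz, smul_eq_mul, smul_eq_mul]
      refine Ideal.add_mem _ (Ideal.mul_mem_mul ha (dM_mem_mx hp hb)) ?_
      rw [mul_comm b]
      exact Ideal.mul_mem_mul (ih ha) hb
    | add x _ y _ hx hy =>
      rw [map_add]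
      exact Ideal.add_mem _ hx hy

theorem dM_mem_J {c : ℕ} {D : Derivation k L L} {μ : MvPolynomial σ L}
    {G : σ → MvPolynomial σ L} {p : σ → L} {f : Fin c → MvPolynomial σ L}
    (hp : ∀ i, eval p μ * D (p i) = eval p (G i)) (n : ℕ)
    (hf : ∀ i, dM D μ G (f i) ∈ J p f n) {F : MvPolynomial σ L} (hF : F ∈ J p f n) :
    dM D μ G F ∈ J p f n := by
  obtain ⟨a, ha, b, hb, rfl⟩ := Submodule.mem_sup.1 hF
  rw [map_add]
  refine Ideal.add_mem _ ?_ (pow_le_J p f n (dM_mem_mx_pow hp n hb))
  clear hF
  induction ha using Submodule.span_induction with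
  | mem x hx => obtain ⟨i, rfl⟩ := hx; exact hf i
  | zero => rw [map_zero]; exact Ideal.zero_mem _
  | add x y _ _ hx hy => rw [map_add]; exact Ideal.add_mem _ hx hy
  | smul r x hxs hx =>
    rw [smul_eq_mul, Derivation.leibniz, smul_eq_mul, smul_eq_mul]
    refine Ideal.add_mem _ (Ideal.mul_mem_left _ _ hx) ?_
    exact Ideal.mul_mem_right _ _ (span_le_J p f n hxs)

/-- if `dM D μ G (f i)` vanishes on the germ for all `i` then `dM D μ G` maps the germ ideal to
itself. -/
theorem dM_mem_germ {c : ℕ} {D : Derivation k L L} {μ : MvPolynomial σ L}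
    {G : σ → MvPolynomial σ L} {p : σ → L} {f : Fin c → MvPolynomial σ L}
    (hp : ∀ i, eval p μ * D (p i) = eval p (G i))
    (hf : ∀ i, dM D μ G (f i) ∈ germ p f) {F : MvPolynomial σ L} (hF : F ∈ germ p f) :
    dM D μ G F ∈ germ p f :=
  mem_germ.2 fun n => dM_mem_J hp n (fun i => mem_germ.1 (hf i) n) (mem_germ.1 hF n)

/-- **Contraction to a block of constant coordinates is stable under coefficientwise `D`.** -/
theorem cD_mem_comap {c : ℕ} {β : Type*} {D : Derivation k L L} {μ : MvPolynomial σ L}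
    {G : σ → MvPolynomial σ L} {p : σ → L} {f : Fin c → MvPolynomial σ L}
    (hf0 : ∀ i, eval p (f i) = 0) (hind : LinearIndependent L (fun i => grad p (f i)))
    (hp : ∀ i, eval p μ * D (p i) = eval p (G i)) (hμ : eval p μ ≠ 0)
    (hf : ∀ i, dM D μ G (f i) ∈ germ p f) (ι : β → σ) (hG : ∀ b, G (ι b) = 0)
    {h : MvPolynomial β L} (hh : rename ι h ∈ germ p f) : rename ι (cD D h) ∈ germ p f := by
  have h1 := dM_mem_germ hp hf hh
  rw [dM_rename D μ G ι hG] at h1
  refine ((germ_isPrime hf0 hind).mem_or_mem h1).resolve_left ?_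
  intro h2
  exact hμ (eval_eq_zero_of_mem_germ hf0 h2)

/-- **The contraction of the germ ideal is defined over the constants**, degree by degree. -/
theorem comap_germ_span {c : ℕ} {β 𝔇 : Type*} (D : 𝔇 → Derivation k L L)
    (μ : 𝔇 → MvPolynomial σ L) (G : 𝔇 → σ → MvPolynomial σ L) {p : σ → L}
    {f : Fin c → MvPolynomial σ L}
    (hf0 : ∀ i, eval p (f i) = 0) (hind : LinearIndependent L (fun i => grad p (f i)))
    (hp : ∀ a i, eval p (μ a) * D a (p i) = eval p (G a i)) (hμ : ∀ a, eval p (μ a) ≠ 0)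
    (hf : ∀ a i, dM (D a) (μ a) (G a) (f i) ∈ germ p f) (ι : β → σ)
    (hG : ∀ a b, G a (ι b) = 0) (T : ℕ)
    (h : MvPolynomial β L) (hh : rename ι h ∈ germ p f) (hT : h.totalDegree ≤ T) :
    h ∈ Submodule.span L {w : MvPolynomial β L | rename ι w ∈ germ p f ∧ w.totalDegree ≤ T ∧
      ∀ a m, D a (coeff m w) = 0} := by
  let W : Submodule L (MvPolynomial β L) :=
    (((germ p f).comap (rename ι : MvPolynomial β L →ₐ[L] MvPolynomial σ L)).restrictScalars L) ⊓
      restrictTotalDegree β L T
  have hmem : ∀ w, w ∈ W ↔ rename ι w ∈ germ p f ∧ w.totalDegree ≤ T := by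
    intro w
    rw [Submodule.mem_inf, mem_restrictTotalDegree]
    exact Iff.rfl
  have h1 := mem_span_const_poly D W (by
    intro a w hw
    rw [hmem] at hw ⊢
    exact ⟨cD_mem_comap hf0 hind (hp a) (hμ a) (hf a) ι (hG a) hw.1,
      (totalDegree_cD_le _ _).trans hw.2⟩) h ((hmem h).2 ⟨hh, hT⟩)
  refine Submodule.span_mono ?_ h1
  rintro w ⟨hw1, hw2⟩
  exact ⟨((hmem w).1 hw1).1, ((hmem w).1 hw1).2, hw2⟩

end germs

end Vale.Agent.P054.T2.H441
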