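import Vale.Agent.P054.T2.H441.ADeriv2
import Vale.Agent.P054.T2.H580.Filt

/-!
# P054 / T2, leaf [AG], part 1: general form

`ι : L[β] → L[σ]` an algebra homomorphism whose image is killed by the twisted derivations
(a block of constant coordinates in possibly non-constant linear coordinates).  If all polynomials
of filtration degree `≤ N + δ` vanishing at the points `pt e`, `e ∈ E`, lie in the germ ideal at
`pt e₀`, then the contraction along `ι` of the germ ideal is spanned, degree by degree, by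
polynomials with constant coefficients.
-/

set_option linter.unusedSectionVars false

open MvPolynomial

namespace Vale.Agent.P054.T2.H441

section ring

variable {σ β L k : Type*} [CommRing k] [CommRing L] [Algebra k L]

theorem dM_algHom (D : Derivation k L L) (μ : MvPolynomial σ L) (G : σ → MvPolynomial σ L)
    (ι : MvPolynomial β L →ₐ[L] MvPolynomial σ L) (hG : ∀ b, dM D μ G (ι (X b)) = 0)
    (h : MvPolynomial β L) : dM D μ G (ι h) = μ * ι (cD D h) := by
  induction h using MvPolynomial.induction_on with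
  | C a =>
    have h1 : ∀ c : L, ι (C c) = C c := fun c => ι.commutes c
    rw [h1, dM_C, cD_C, h1]
  | add a b ha hb => rw [map_add, map_add, ha, hb, map_add, map_add, mul_add]
  | mul_X a i ha =>
    rw [map_mul, Derivation.leibniz, hG, smul_zero, zero_add, ha, Derivation.leibniz, cD_X,
      smul_zero, zero_add, smul_eq_mul, smul_eq_mul, map_mul]
    ring

end ring

section filt

open Vale.Agent.P054.T2.H580

variable {σ L k : Type*} [CommRing k] [Field L] [Algebra k L]

theorem cD_mem_Vw (D : Derivation k L L) (w : σ → ℕ) {n : ℕ} {F : MvPolynomial σ L}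
    (hF : F ∈ Vw L w n) : cD D F ∈ Vw L w n := by
  rw [mem_Vw] at hF ⊢
  exact fun m hm => hF m (support_cD_subset D F hm)

theorem cD_mem_totalDegree (D : Derivation k L L) {n : ℕ} {F : MvPolynomial σ L}
    (hF : F ∈ restrictTotalDegree σ L n) : cD D F ∈ restrictTotalDegree σ L n := by
  rw [mem_restrictTotalDegree] at hF ⊢
  exact (totalDegree_cD_le D F).trans hF

theorem dM_mem_V [Fintype σ] {V : ℕ → Submodule L (MvPolynomial σ L)} (hV : IsFilt V)
    (D : Derivation k L L) (μ : MvPolynomial σ L) (G : σ → MvPolynomial σ L)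
    (hVp : ∀ i n F, F ∈ V n → pderiv i F ∈ V n) (hVc : ∀ n F, F ∈ V n → cD D F ∈ V n) {δ : ℕ}
    (hμ : μ ∈ V δ) (hG : ∀ i, G i ∈ V δ) {n : ℕ} {F : MvPolynomial σ L} (hF : F ∈ V n) :
    dM D μ G F ∈ V (n + δ) := by
  rw [dM_eq_sum]
  refine Submodule.add_mem _ ?_ (Submodule.sum_mem _ fun i _ => hV.mul (hVp i n F hF) (hG i))
  rw [add_comm n δ]
  exact hV.mul hμ (hVc n F hF)

end filt

section germs

variable {σ β L k 𝔇 : Type*} [CommRing k] [Field L] [Algebra k L] [Fintype σ] [DecidableEq σ]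

open Vale.Agent.P054.T2.H930 Vale.Agent.P054.T2.H580

/-- the hypothesis of `comap_germ_span'` from [GOOD] -/
theorem dM_mem_germ_of_good {V : ℕ → Submodule L (MvPolynomial σ L)} (hV : IsFilt V)
    (D : Derivation k L L) (μ : MvPolynomial σ L) (G : σ → MvPolynomial σ L)
    (hVp : ∀ i n F, F ∈ V n → pderiv i F ∈ V n) (hVc : ∀ n F, F ∈ V n → cD D F ∈ V n) {δ : ℕ}
    (hμ : μ ∈ V δ) (hG : ∀ i, G i ∈ V δ) {α : Type*} (E : Set α) (pt : α → σ → L)
    (hp : ∀ e ∈ E, ∀ i, eval (pt e) μ * D (pt e i) = eval (pt e) (G i))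
    {c : ℕ} (f : Fin c → MvPolynomial σ L) {N : ℕ} (hfV : ∀ i, f i ∈ V N)
    (hf0 : ∀ e ∈ E, ∀ i, eval (pt e) (f i) = 0) {p : σ → L}
    (hgood : ∀ F ∈ V (N + δ), (∀ e ∈ E, eval (pt e) F = 0) → F ∈ germ p f) (i : Fin c) :
    dM D μ G (f i) ∈ germ p f := by
  refine hgood _ (dM_mem_V hV D μ G hVp hVc hμ hG (hfV i)) fun e he => ?_
  rw [eval_dM D μ G (pt e) (hp e he), hf0 e he i, map_zero, mul_zero]

theorem cD_mem_comap' {c : ℕ} {D : Derivation k L L} {μ : MvPolynomial σ L}
    {G : σ → MvPolynomial σ L} {p : σ → L} {f : Fin c → MvPolynomial σ L}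
    (hf0 : ∀ i, eval p (f i) = 0) (hind : LinearIndependent L (fun i => grad p (f i)))
    (hp : ∀ i, eval p μ * D (p i) = eval p (G i)) (hμ : eval p μ ≠ 0)
    (hf : ∀ i, dM D μ G (f i) ∈ germ p f) (ι : MvPolynomial β L →ₐ[L] MvPolynomial σ L)
    (hG : ∀ b, dM D μ G (ι (X b)) = 0)
    {h : MvPolynomial β L} (hh : ι h ∈ germ p f) : ι (cD D h) ∈ germ p f := by
  have h1 := dM_mem_germ hp hf hh
  rw [dM_algHom D μ G ι hG] at h1
  refine ((germ_isPrime hf0 hind).mem_or_mem h1).resolve_left ?_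
  intro h2
  exact hμ (eval_eq_zero_of_mem_germ hf0 h2)

/-- **The contraction of the germ ideal along a constant block is defined over the constants**,
degree by degree. -/
theorem comap_germ_span' {c : ℕ} (D : 𝔇 → Derivation k L L)
    (μ : 𝔇 → MvPolynomial σ L) (G : 𝔇 → σ → MvPolynomial σ L) {p : σ → L}
    {f : Fin c → MvPolynomial σ L}
    (hf0 : ∀ i, eval p (f i) = 0) (hind : LinearIndependent L (fun i => grad p (f i)))
    (hp : ∀ a i, eval p (μ a) * D a (p i) = eval p (G a i)) (hμ : ∀ a, eval p (μ a) ≠ 0)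
    (hf : ∀ a i, dM (D a) (μ a) (G a) (f i) ∈ germ p f)
    (ι : MvPolynomial β L →ₐ[L] MvPolynomial σ L)
    (hG : ∀ a b, dM (D a) (μ a) (G a) (ι (X b)) = 0) (T : ℕ)
    (h : MvPolynomial β L) (hh : ι h ∈ germ p f) (hT : h.totalDegree ≤ T) :
    h ∈ Submodule.span L {w : MvPolynomial β L | ι w ∈ germ p f ∧ w.totalDegree ≤ T ∧
      ∀ a m, D a (coeff m w) = 0} := by
  let W : Submodule L (MvPolynomial β L) :=
    (((germ p f).comap ι).restrictScalars L) ⊓ restrictTotalDegree β L T
  have hmem : ∀ w, w ∈ W ↔ ι w ∈ germ p f ∧ w.totalDegree ≤ T := by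
    intro w
    rw [Submodule.mem_inf, mem_restrictTotalDegree]
    exact Iff.rfl
  have h1 := mem_span_const_poly D W (by
    intro a w hw
    rw [hmem] at hw ⊢
    exact ⟨cD_mem_comap' hf0 hind (hp a) (hμ a) (hf a) ι (hG a) hw.1,
      (totalDegree_cD_le _ _).trans hw.2⟩) h ((hmem h).2 ⟨hh, hT⟩)
  refine Submodule.span_mono ?_ h1
  rintro w ⟨hw1, hw2⟩
  exact ⟨((hmem w).1 hw1).1, ((hmem w).1 hw1).2, hw2⟩

end germs

end Vale.Agent.P054.T2.H441
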