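import Vale.Agent.P054.T2.H441.AGen
import Vale.Agent.P054.T2.H428.SecC

/-!
# P054 / T2, leaf [AG], part 2: the explicit vector fields on the hat leaf

Coordinates on the hat leaf of a fixed `s`: `(u; ζ, θ)`, index type `SecC.HL n`.  `B` is an
orthogonal matrix, `zB B (y, y') = (y - B y', y + B y')`.  For EVERY derivation `D` of the reals
killing the coordinates of the points, `D B = O B` with `O = (D B) Bᵀ` skew, and along every actual
point `hx s r = (mu s r; ζ_r, θ_r)` we have `eval (zdP s 0) * D (hx s r i) = eval (GP D s O i)` with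
explicit polynomials of degree `≤ 2`.  Consequence (`Side` version): the prime of `r` on the hat
leaf germ is stable under all coefficientwise derivations in the coordinates `(y, y')`.
-/

set_option linter.unusedSectionVars false

open MvPolynomial

namespace Vale.Agent.P054.T2.H441

open Vale.Agent.P054.T2.H686 Vale.Agent.P054.T2.H580 Vale.Agent.P054.T2.SecC

variable {n : ℕ} {k : Type*} [CommRing k] [Algebra k ℝ]

/-- `(y, y') ↦ (y - B y', y + B y')` -/
def zB (B : Matrix (Fin (n + 1)) (Fin (n + 1)) ℝ) (r : ZZ n) : ZZ n :=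
  (fun i => r.1 i - ∑ j, B i j * r.2 j, fun i => r.1 i + ∑ j, B i j * r.2 j)

/-- the velocity of `θ` (minus the velocity of `ζ`) -/
noncomputable def rot (O : Matrix (Fin (n + 1)) (Fin (n + 1)) ℝ) (r : ZZ n) (i : Fin (n + 1)) :
    ℝ := ∑ l, O i l * ((r.2 l - r.1 l) / 2)

section matrix

variable {d : ℕ} (D : Derivation k ℝ ℝ) {B : Matrix (Fin d) (Fin d) ℝ}

theorem der_mul_aux (M N : Matrix (Fin d) (Fin d) ℝ) :
    (M * N).map D = M.map D * N + M * N.map D := by
  ext i j
  simp only [Matrix.map_apply, Matrix.mul_apply, Matrix.add_apply, map_sum, Derivation.leibniz,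
    smul_eq_mul]
  rw [← Finset.sum_add_distrib]
  refine Finset.sum_congr rfl fun x _ => ?_
  ring

theorem der_eq_mul (hB : B * B.transpose = 1) : B.map D = (B.map D * B.transpose) * B := by
  have h : B.transpose * B = 1 := mul_eq_one_comm.1 hB
  rw [Matrix.mul_assoc, h, Matrix.mul_one]

theorem der_skew (hB : B * B.transpose = 1) :
    (B.map D * B.transpose).transpose = - (B.map D * B.transpose) := by
  have h1 := congrArg (fun M : Matrix (Fin d) (Fin d) ℝ => M.map D) hB
  simp only [der_mul_aux] at h1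
  have h2 : (1 : Matrix (Fin d) (Fin d) ℝ).map D = 0 := by
    ext i j
    rw [Matrix.map_apply, Matrix.one_apply, Matrix.zero_apply]
    split_ifs
    · exact D.map_one_eq_zero
    · exact map_zero D
  rw [h2] at h1
  rw [Matrix.transpose_mul, Matrix.transpose_transpose, ← Matrix.transpose_map]
  exact eq_neg_of_add_eq_zero_right h1

end matrix

theorem der_zB (D : Derivation k ℝ ℝ) (B O : Matrix (Fin (n + 1)) (Fin (n + 1)) ℝ)
    (hD : B.map D = O * B) (r : ZZ n)
    (h1 : ∀ j, D (r.1 j) = 0) (h2 : ∀ j, D (r.2 j) = 0) (i : Fin (n + 1)) :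
    D ((zB B r).1 i) = - rot O (zB B r) i ∧ D ((zB B r).2 i) = rot O (zB B r) i := by
  have h3 : rot O (zB B r) i = ∑ l, O i l * ∑ j, B l j * r.2 j := by
    unfold rot zB
    refine Finset.sum_congr rfl fun l _ => ?_
    congr 1
    ring
  have h4 : D (∑ j, B i j * r.2 j) = ∑ l, O i l * ∑ j, B l j * r.2 j := by
    have hD' : ∀ i j, D (B i j) = ∑ l, O i l * B l j := by
      intro i j
      have := congrFun (congrFun hD i) j
      rwa [Matrix.map_apply, Matrix.mul_apply] at this
    rw [map_sum]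
    simp only [Derivation.leibniz, h2, hD', smul_eq_mul, mul_zero, zero_add, Finset.mul_sum]
    rw [Finset.sum_comm]
    refine Finset.sum_congr rfl fun l _ => Finset.sum_congr rfl fun j _ => ?_
    ring
  rw [h3, ← h4]
  constructor
  · show D (r.1 i - ∑ j, B i j * r.2 j) = _
    rw [map_sub, h1, zero_sub]
  · show D (r.1 i + ∑ j, B i j * r.2 j) = _
    rw [map_add, h1, zero_add]

/-- `rot` as a polynomial in `(ζ, θ)` -/
noncomputable def rotP (O : Matrix (Fin (n + 1)) (Fin (n + 1)) ℝ) (i : Fin (n + 1)) :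
    MvPolynomial (HL n) ℝ :=
  ∑ l, C (O i l) * ((X (Sum.inr (Sum.inr l)) - X (Sum.inr (Sum.inl l))) * C (1 / 2))

/-- `ζ_s i - ζ i` -/
noncomputable def zdP (s : ZZ n) (i : Fin (n + 1)) :
    MvPolynomial (HL n) ℝ := C (s.1 i) - X (Sum.inr (Sum.inl i))

/-- its derivative -/
noncomputable def dzdP (D : Derivation k ℝ ℝ) (s : ZZ n)
    (O : Matrix (Fin (n + 1)) (Fin (n + 1)) ℝ) (i : Fin (n + 1)) :
    MvPolynomial (HL n) ℝ := C (D (s.1 i)) + rotP O i

/-- the vector field, multiplied by `zdP s 0` -/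
noncomputable def GP (D : Derivation k ℝ ℝ) (s : ZZ n)
    (O : Matrix (Fin (n + 1)) (Fin (n + 1)) ℝ) : HL n → MvPolynomial (HL n) ℝ
  | Sum.inl i => dzdP D s O i.succ - X (Sum.inl i) * dzdP D s O 0
  | Sum.inr (Sum.inl i) => - (zdP s 0 * rotP O i)
  | Sum.inr (Sum.inr i) => zdP s 0 * rotP O i

theorem eval_rotP (O : Matrix (Fin (n + 1)) (Fin (n + 1)) ℝ) (s r : ZZ n) (i : Fin (n + 1)) :
    eval (hx s r) (rotP O i) = rot O r i := by
  unfold rotP rot hx pt
  rw [map_sum]
  refine Finset.sum_congr rfl fun l _ => ?_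
  simp only [map_mul, map_sub, eval_C, eval_X, Sum.elim_inr, Sum.elim_inl]
  ring

theorem eval_zdP (s r : ZZ n) (i : Fin (n + 1)) :
    eval (hx s r) (zdP s i) = s.1 i - r.1 i := by
  unfold zdP hx pt
  simp only [map_sub, eval_C, eval_X, Sum.elim_inr, Sum.elim_inl]

/-- **The vector field along the actual points.** -/
theorem eval_GP (D : Derivation k ℝ ℝ) (O : Matrix (Fin (n + 1)) (Fin (n + 1)) ℝ) (s r : ZZ n)
    (hr : ∀ i, D (r.1 i) = - rot O r i ∧ D (r.2 i) = rot O r i) (h0 : s.1 0 ≠ r.1 0)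
    (x : HL n) :
    eval (hx s r) (zdP s 0) * D (hx s r x) = eval (hx s r) (GP D s O x) := by
  have hne : s.1 0 - r.1 0 ≠ 0 := sub_ne_zero.2 h0
  rcases x with i | i | i
  · have h1 : mu s r i * (s.1 0 - r.1 0) = s.1 i.succ - r.1 i.succ := by
      unfold mu
      rw [div_mul_cancel₀ _ hne]
    have h2 := congrArg D h1
    rw [Derivation.leibniz, smul_eq_mul, smul_eq_mul, map_sub, map_sub, (hr 0).1, (hr _).1] at h2
    unfold GP dzdP
    rw [map_sub, map_mul, map_add, map_add, eval_C, eval_C, eval_rotP, eval_rotP, eval_zdP, eval_X]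
    show (s.1 0 - r.1 0) * D (mu s r i) = _
    show _ = D (s.1 i.succ) + rot O r i.succ - mu s r i * (D (s.1 0) + rot O r 0)
    linear_combination h2
  · unfold GP
    rw [map_neg, map_mul, eval_rotP, eval_zdP]
    show (s.1 0 - r.1 0) * D (r.1 i) = _
    rw [(hr i).1]
    ring
  · unfold GP
    rw [map_mul, eval_rotP, eval_zdP]
    show (s.1 0 - r.1 0) * D (r.2 i) = _
    rw [(hr i).2]

/-- the linear coordinates `(y, y')` in terms of `(ζ, θ)` -/
noncomputable def yP (B : Matrix (Fin (n + 1)) (Fin (n + 1)) ℝ) : ZI n → MvPolynomial (ZI n) ℝ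
  | Sum.inl i => (X (Sum.inl i) + X (Sum.inr i)) * C (1 / 2)
  | Sum.inr j => ∑ i, C (B i j) * ((X (Sum.inr i) - X (Sum.inl i)) * C (1 / 2))

/-- polynomials in `(y, y')` as polynomials in `(ζ, θ)` -/
noncomputable def chg (B : Matrix (Fin (n + 1)) (Fin (n + 1)) ℝ) :
    MvPolynomial (ZI n) ℝ →ₐ[ℝ] MvPolynomial (ZI n) ℝ := aeval (yP B)

theorem chg_X (B : Matrix (Fin (n + 1)) (Fin (n + 1)) ℝ) (b : ZI n) :
    chg B (X b) = yP B b := by
  unfold chg
  rw [aeval_X]

/-- `chg B w` evaluated at `zB B r` is `w` evaluated at `r` -/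
theorem eval_chg {B : Matrix (Fin (n + 1)) (Fin (n + 1)) ℝ} (hB : B * B.transpose = 1) (r : ZZ n)
    (w : MvPolynomial (ZI n) ℝ) : eval (pt (zB B r)) (chg B w) = eval (pt r) w := by
  have hB' : B.transpose * B = 1 := mul_eq_one_comm.1 hB
  have h1 : ∀ b, eval (pt (zB B r)) (yP B b) = pt r b := by
    intro b
    rcases b with i | j
    · show eval (pt (zB B r)) ((X (Sum.inl i) + X (Sum.inr i)) * C (1 / 2)) = r.1 i
      rw [map_mul, map_add, eval_X, eval_X, eval_C]
      show (r.1 i - (∑ j, B i j * r.2 j) + (r.1 i + (∑ j, B i j * r.2 j))) * (1 / 2) = r.1 i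
      ring
    · show eval (pt (zB B r)) (∑ i, C (B i j) * ((X (Sum.inr i) - X (Sum.inl i)) * C (1 / 2))) =
        r.2 j
      rw [map_sum]
      have h2 : ∀ i, eval (pt (zB B r)) (C (B i j) * ((X (Sum.inr i) - X (Sum.inl i)) *
          C (1 / 2))) = ∑ l, B i j * B i l * r.2 l := by
        intro i
        rw [map_mul, map_mul, map_sub, eval_X, eval_X, eval_C, eval_C]
        show B i j * ((r.1 i + (∑ j, B i j * r.2 j) - (r.1 i - (∑ j, B i j * r.2 j))) * (1 / 2)) = _
        have h3 : (r.1 i + (∑ j, B i j * r.2 j) - (r.1 i - (∑ j, B i j * r.2 j))) * (1 / 2) =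
          ∑ j, B i j * r.2 j := by ring
        rw [h3, Finset.mul_sum]
        refine Finset.sum_congr rfl fun l _ => ?_
        ring
      simp only [h2]
      rw [Finset.sum_comm]
      have h4 : ∀ l, ∑ i, B i j * B i l * r.2 l = (B.transpose * B) j l * r.2 l := by
        intro l
        rw [Matrix.mul_apply, Finset.sum_mul]
        rfl
      simp only [h4, hB', Matrix.one_apply, ite_mul, one_mul, zero_mul]
      rw [Finset.sum_ite_eq Finset.univ j (fun l => r.2 l), if_pos (Finset.mem_univ _)]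
  induction w using MvPolynomial.induction_on with
  | C a =>
    have : chg B (C a) = C a := (chg B).commutes a
    rw [this, eval_C, eval_C]
  | add a b ha hb => rw [map_add, map_add, map_add, ha, hb]
  | mul_X a i ha => rw [map_mul, map_mul, map_mul, ha, chg_X, h1, eval_X]

/-- the coordinates `(y, y')` are constant -/
theorem dM_yP (D : Derivation k ℝ ℝ) (B O : Matrix (Fin (n + 1)) (Fin (n + 1)) ℝ)
    (hD : B.map D = O * B) (hO : O.transpose = -O) (s : ZZ n) (b : ZI n) :
    dM D (zdP s 0) (GP D s O) (rename Sum.inr (yP B b)) = 0 := by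
  have hD' : ∀ i j, D (B i j) = (O * B) i j := by
    intro i j
    have := congrFun (congrFun hD i) j
    rwa [Matrix.map_apply] at this
  have hh : dM D (zdP s 0) (GP D s O) (C (1 / 2 : ℝ)) = 0 := by
    rw [dM_C]
    have : D (1 / 2 : ℝ) = 0 := by
      have h3 := D.leibniz (2 : ℝ) (1 / 2 : ℝ)
      rw [mul_one_div_cancel (two_ne_zero), D.map_one_eq_zero] at h3
      have h4 : D (2 : ℝ) = 0 := by
        have : (2 : ℝ) = 1 + 1 := by norm_num
        rw [this, map_add, D.map_one_eq_zero, add_zero]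
      rw [h4, smul_zero, add_zero, smul_eq_mul] at h3
      rcases mul_eq_zero.1 h3.symm with h5 | h5
      · exact absurd h5 two_ne_zero
      · exact h5
    rw [this, map_zero, mul_zero]
  rcases b with i | j
  · have h0 : rename (Sum.inr : ZI n → HL n) (yP B (Sum.inl i)) = (X (Sum.inr (Sum.inl i)) +
        X (Sum.inr (Sum.inr i))) * C (1 / 2 : ℝ) := by
      show rename (Sum.inr : ZI n → HL n) ((X (Sum.inl i) + X (Sum.inr i)) * C (1 / 2)) = _
      rw [map_mul, map_add, rename_X, rename_X, rename_C]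
    rw [h0, Derivation.leibniz, hh, map_add, dM_X, dM_X]
    show _ + C (1 / 2 : ℝ) • (-(zdP s 0 * rotP O i) + zdP s 0 * rotP O i) = 0
    rw [neg_add_cancel, smul_zero, smul_zero, add_zero]
  · have h0 : rename (Sum.inr : ZI n → HL n) (yP B (Sum.inr j)) = ∑ i, C (B i j) *
        ((X (Sum.inr (Sum.inr i)) - X (Sum.inr (Sum.inl i))) * C (1 / 2 : ℝ)) := by
      show rename (Sum.inr : ZI n → HL n) (∑ i, C (B i j) * ((X (Sum.inr i) - X (Sum.inl i)) *
        C (1 / 2))) = _
      rw [map_sum]
      refine Finset.sum_congr rfl fun i _ => ?_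
      rw [map_mul, map_mul, map_sub, rename_X, rename_X, rename_C, rename_C]
    rw [h0, map_sum]
    have h3 : ∀ i, dM D (zdP s 0) (GP D s O) (C (B i j) *
        ((X (Sum.inr (Sum.inr i)) - X (Sum.inr (Sum.inl i))) * C (1 / 2))) =
        zdP s 0 * (C (B i j) * rotP O i +
          C ((O * B) i j) * ((X (Sum.inr (Sum.inr i)) - X (Sum.inr (Sum.inl i))) *
            C (1 / 2))) := by
      intro i
      rw [Derivation.leibniz, Derivation.leibniz, hh, dM_C, hD', map_sub, dM_X, dM_X]
      show C (B i j) • (_ • (0 : MvPolynomial (HL n) ℝ) + C (1 / 2 : ℝ) • (zdP s 0 * rotP O i -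
        -(zdP s 0 * rotP O i))) + _ • (zdP s 0 * C ((O * B) i j)) = _
      simp only [smul_eq_mul, mul_zero, zero_add, sub_neg_eq_add]
      have h4 : (C (1 / 2 : ℝ) : MvPolynomial (HL n) ℝ) * (zdP s 0 * rotP O i + zdP s 0 * rotP O i)
          = zdP s 0 * rotP O i := by
        rw [← two_mul, ← mul_assoc]
        have : (C (1 / 2 : ℝ) : MvPolynomial (HL n) ℝ) * 2 = 1 := by
          have h5 : (2 : MvPolynomial (HL n) ℝ) = C 2 := (map_ofNat C 2).symm
          rw [h5, ← C_mul, one_div_mul_cancel two_ne_zero, C_1]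
        rw [this, one_mul]
      rw [h4]
      ring
    simp only [h3]
    rw [← Finset.mul_sum, Finset.sum_add_distrib]
    have h6 : ∑ i, C (B i j) * rotP O i = ∑ l, (∑ i, C (B i j) * C (O i l)) *
        ((X (Sum.inr (Sum.inr l)) - X (Sum.inr (Sum.inl l))) * C (1 / 2) :
          MvPolynomial (HL n) ℝ) := by
      unfold rotP
      simp only [Finset.mul_sum, Finset.sum_mul]
      rw [Finset.sum_comm]
      refine Finset.sum_congr rfl fun l _ => Finset.sum_congr rfl fun i _ => ?_
      ring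
    have h7 : ∀ l, (∑ i, C (B i j) * C (O i l) : MvPolynomial (HL n) ℝ) = - C ((O * B) l j) := by
      intro l
      rw [Matrix.mul_apply, ← map_neg, ← Finset.sum_neg_distrib, map_sum]
      refine Finset.sum_congr rfl fun i _ => ?_
      rw [← C_mul]
      congr 1
      have h8 : O i l = - O l i := by
        have := congrFun (congrFun hO l) i
        simpa [Matrix.transpose_apply] using this
      rw [h8]
      ring
    rw [h6]
    simp only [h7]
    rw [← Finset.sum_add_distrib, Finset.sum_eq_zero, mul_zero]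
    intro i _
    ring

end Vale.Agent.P054.T2.H441
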