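import Vale.Agent.P054.T2.H441.ASide
import Vale.Agent.P054.T2.H431.Gex
import Vale.Agent.P054.T2.H588.Iso

/-!
# P054 / T2, [LIN]: the affine hull of a prime stable under the A-derivatives is defined over the
field of constants
-/

set_option linter.unusedSectionVars false

open MvPolynomial

namespace Vale.Agent.P054.T2.H441

open Vale.Agent.P054.T2.H686 Vale.Agent.P054.T2.H580 Vale.Agent.P054.T2.SecC
open Vale.Agent.P054.T2.H588 (mat mat_orth mat_mulVec KK GI ztL ztL_injective pv zt_eq)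
open Vale.Agent.P054.T2.H431 (constF mem_constF)

variable {n : ℕ} {k : Type*} [CommRing k] [Algebra k ℝ]

/-- `zB` of the matrix of `B` is `zt B` -/
theorem zB_mat (B : E n ≃ₗᵢ[ℝ] E n) (v : E n × E n) : zB (mat B) (pv v) = zt B v := by
  have h : ∀ i, ∑ j, mat B i j * v.2 j = B v.2 i := fun i => mat_mulVec B v.2 i
  refine Prod.ext ?_ ?_
  · funext i
    show v.1 i - ∑ j, mat B i j * v.2 j = v.1 i - B v.2 i
    rw [h]
  · funext i
    show v.1 i + ∑ j, mat B i j * v.2 j = v.1 i + B v.2 i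
    rw [h]

theorem zB_eq_ztL (M : Matrix (Fin (n + 1)) (Fin (n + 1)) ℝ) (s : ZZ n) : zB M s = ztL M s := rfl

/-- the affine hull direction space of an ideal, based at `r` -/
def dirV (Pr : Ideal (MvPolynomial (ZI n) ℝ)) (r : ZZ n) : Submodule ℝ (ZZ n) where
  carrier := {x | ∀ l : ZZ n →ₗ[ℝ] ℝ, linL l r ∈ Pr → l x = 0}
  add_mem' := by
    intro x y hx hy l hl
    rw [map_add, hx l hl, hy l hl, add_zero]
  zero_mem' := fun l _ => map_zero l
  smul_mem' := by
    intro c x hx l hl
    rw [map_smul, hx l hl, smul_zero]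

theorem side_V_eq {A : Finset (ZZ n × ZZ n)} {W D σ v : ℕ} (S : Side n A W D σ v)
    (e : ZZ n × ZZ n) : S.V e = dirV (S.Pr e) e.2 := rfl

/-- the affine polynomial `∑ c_b (X_b - p_b)` -/
noncomputable def linP (p c : ZI n → ℝ) : MvPolynomial (ZI n) ℝ :=
  (∑ b, C (c b) * X b) - C (∑ b, c b * p b)

theorem eval_linP (p c x : ZI n → ℝ) : eval x (linP p c) = ∑ b, c b * x b - ∑ b, c b * p b := by
  unfold linP
  rw [map_sub, map_sum, eval_C]
  congr 1
  refine Finset.sum_congr rfl fun b _ => ?_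
  rw [map_mul, eval_C, eval_X]

theorem cD_linP (D : Derivation k ℝ ℝ) (p c : ZI n → ℝ) (hp : ∀ b, D (p b) = 0) :
    cD D (linP p c) = linP p (fun b => D (c b)) := by
  unfold linP
  rw [map_sub, map_sum, cD_C, map_sum]
  congr 1
  · refine Finset.sum_congr rfl fun b _ => ?_
    rw [Derivation.leibniz, cD_X, cD_C, smul_zero, zero_add, smul_eq_mul, mul_comm]
  · congr 1
    refine Finset.sum_congr rfl fun b _ => ?_
    rw [Derivation.leibniz, hp, smul_zero, zero_add, smul_eq_mul, mul_comm]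

theorem linP_add (p c c' : ZI n → ℝ) : linP p (c + c') = linP p c + linP p c' := by
  unfold linP
  simp only [Pi.add_apply, add_mul, map_add, Finset.sum_add_distrib]
  ring

/-- every vector of `ZZ n` is `zB M` of something -/
theorem zB_surjective {M : Matrix (Fin (n + 1)) (Fin (n + 1)) ℝ} (hM : M * M.transpose = 1) :
    Function.Surjective (zB M) := by
  have h := (LinearMap.injective_iff_surjective (f := (ztL M : ZZ n →ₗ[ℝ] ZZ n))).1
    (ztL_injective hM)
  intro x
  obtain ⟨y, hy⟩ := h x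
  exact ⟨y, hy⟩

theorem linL_eq_chg {M : Matrix (Fin (n + 1)) (Fin (n + 1)) ℝ} (hM : M * M.transpose = 1)
    (l : ZZ n →ₗ[ℝ] ℝ) (c : ZI n → ℝ) (r : ZZ n)
    (hl : ∀ y : ZZ n, l (zB M y) = ∑ b, c b * pt y b) :
    linL l (zB M r) = chg M (linP (pt r) c) := by
  refine MvPolynomial.funext fun x => ?_
  obtain ⟨y, hy⟩ := zB_surjective hM (fun i => x (Sum.inl i), fun i => x (Sum.inr i))
  have hx : x = pt (zB M y) := by
    rw [hy]
    funext b
    rcases b with b | b <;> rfl
  rw [hx, eval_chg hM, eval_linP, eval_linL, hl, hl]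

/-- **[LIN].** -/
theorem dirV_eq_span (B : E n ≃ₗᵢ[ℝ] E n) (Pr : Ideal (MvPolynomial (ZI n) ℝ))
    (hstab : ∀ D : Derivation k ℝ ℝ, ∀ h, chg (mat B) h ∈ Pr → chg (mat B) (cD D h) ∈ Pr)
    (r₀ : E n × E n) (hr : KK (constF k ℝ) r₀) :
    ∃ S : Set (E n × E n), (∀ v ∈ S, KK (constF k ℝ) v) ∧
      dirV Pr (zt B r₀) = Submodule.span ℝ (zt B '' S) := by
  classical
  set M := mat B with hMdef
  have hM : M * M.transpose = 1 := mat_orth B
  set p : ZI n → ℝ := pt (pv r₀) with hp
  have hpc : ∀ (D : Derivation k ℝ ℝ) b, D (p b) = 0 := by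
    intro D b
    rcases b with i | i
    · exact hr.1 i D
    · exact hr.2 i D
  have hrz : zt B r₀ = zB M (pv r₀) := (zB_mat B r₀).symm
  -- the space in the coordinates `(y, y')`
  let V' : Submodule ℝ (ZI n → ℝ) :=
    { carrier := {y | ∀ c, chg M (linP p c) ∈ Pr → ∑ b, c b * y b = 0}
      add_mem' := by
        intro x y hx hy c hc
        have h1 := hx c hc
        have h2 := hy c hc
        simp only [Pi.add_apply, mul_add, Finset.sum_add_distrib]
        rw [h1, h2, add_zero]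
      zero_mem' := by
        intro c _
        simp
      smul_mem' := by
        intro a x hx c hc
        have h1 := hx c hc
        simp only [Pi.smul_apply, smul_eq_mul]
        have h2 : ∑ b, c b * (a * x b) = a * ∑ b, c b * x b := by
          rw [Finset.mul_sum]
          exact Finset.sum_congr rfl fun b _ => by ring
        rw [h2, h1, mul_zero] }
  have hV' : ∀ y, y ∈ V' ↔ ∀ c, chg M (linP p c) ∈ Pr → ∑ b, c b * y b = 0 := fun y => Iff.rfl
  -- stability
  have hst : ∀ D : Derivation k ℝ ℝ, ∀ y ∈ V', (fun b => D (y b)) ∈ V' := by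
    intro D y hy
    rw [hV'] at hy ⊢
    intro c hc
    have h1 := hy c hc
    have h2 : chg M (linP p fun b => D (c b)) ∈ Pr := by
      rw [← cD_linP D p c (hpc D)]
      exact hstab D _ hc
    have h3 := hy _ h2
    have h4 := congrArg D h1
    rw [map_zero, map_sum] at h4
    simp only [Derivation.leibniz, smul_eq_mul] at h4
    rw [Finset.sum_add_distrib] at h4
    have h5 : ∑ b, y b * D (c b) = 0 := by
      rw [← h3]
      exact Finset.sum_congr rfl fun b _ => mul_comm _ _
    rw [h5, add_zero] at h4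
    exact h4
  -- comparison of the two spaces
  have hcmp : ∀ y : ZZ n, zB M y ∈ dirV Pr (zt B r₀) ↔ pt y ∈ V' := by
    intro y
    rw [hV']
    constructor
    · intro h c hc
      let e : ZZ n ≃ₗ[ℝ] ZZ n := LinearEquiv.ofBijective (ztL M : ZZ n →ₗ[ℝ] ZZ n)
        ⟨ztL_injective hM, zB_surjective hM⟩
      let l : ZZ n →ₗ[ℝ] ℝ :=
        (∑ i : Fin (n + 1), c (Sum.inl i) • (LinearMap.proj i ∘ₗ LinearMap.fst ℝ _ _) +
          ∑ i : Fin (n + 1), c (Sum.inr i) • (LinearMap.proj i ∘ₗ LinearMap.snd ℝ _ _)) ∘ₗ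
          (e.symm : ZZ n →ₗ[ℝ] ZZ n)
      have hl : ∀ y : ZZ n, l (zB M y) = ∑ b, c b * pt y b := by
        intro y
        have h1 : e.symm (zB M y) = y := by
          rw [LinearEquiv.symm_apply_eq]
          rfl
        simp only [l, LinearMap.comp_apply, LinearEquiv.coe_coe, h1, LinearMap.add_apply,
          LinearMap.sum_apply, LinearMap.smul_apply, LinearMap.fst_apply, LinearMap.snd_apply,
          LinearMap.proj_apply, smul_eq_mul, Fintype.sum_sum_type]
        rfl
      have h2 := h l (by rw [hrz, linL_eq_chg hM l c _ hl]; exact hc)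
      rwa [hl] at h2
    · intro h l hl
      let c : ZI n → ℝ := Sum.elim (fun i => l (zB M (Pi.single i 1, 0)))
        (fun i => l (zB M (0, Pi.single i 1)))
      have hlc : ∀ y : ZZ n, l (zB M y) = ∑ b, c b * pt y b := by
        intro y
        have h1 := lin_apply (l ∘ₗ (ztL M : ZZ n →ₗ[ℝ] ZZ n)) y
        rw [Fintype.sum_sum_type]
        exact h1
      have h2 := h c (by
        rw [hp, ← linL_eq_chg hM l c _ hlc, ← hrz]
        exact hl)
      rw [hlc]
      exact h2
  refine ⟨{v | KK (constF k ℝ) v ∧ zt B v ∈ dirV Pr (zt B r₀)}, fun v hv => hv.1, ?_⟩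
  apply le_antisymm
  · intro x hx
    obtain ⟨y, rfl⟩ := zB_surjective hM x
    have hy : pt y ∈ V' := (hcmp y).1 hx
    have h1 := mem_span_const_pi (fun D : Derivation k ℝ ℝ => D) V' hst (pt y) hy
    let Φ : (ZI n → ℝ) →ₗ[ℝ] ZZ n := (ztL M : ZZ n →ₗ[ℝ] ZZ n) ∘ₗ
      LinearMap.prod (LinearMap.funLeft ℝ ℝ Sum.inl) (LinearMap.funLeft ℝ ℝ Sum.inr)
    have h2 : Φ (pt y) = zB M y := rfl
    have h3 := Submodule.mem_map_of_mem (f := Φ) h1
    rw [h2, Submodule.map_span] at h3
    refine Submodule.span_mono ?_ h3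
    rintro _ ⟨w, ⟨hw1, hw2⟩, rfl⟩
    have hz : zt B ((WithLp.toLp 2 (fun i => w (Sum.inl i)),
        WithLp.toLp 2 (fun i => w (Sum.inr i))) : E n × E n) =
        zB M (fun i => w (Sum.inl i), fun i => w (Sum.inr i)) := (zB_mat B _).symm
    refine ⟨(WithLp.toLp 2 (fun i => w (Sum.inl i)), WithLp.toLp 2 (fun i => w (Sum.inr i))),
      ⟨⟨fun i D => hw2 D _, fun i D => hw2 D _⟩, ?_⟩, ?_⟩
    · rw [hz, hcmp]
      have : pt ((fun i => w (Sum.inl i), fun i => w (Sum.inr i)) : ZZ n) = w := by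
        funext b
        rcases b with b | b <;> rfl
      rw [this]
      exact hw1
    · rw [hz]
      rfl
  · rw [Submodule.span_le]
    rintro _ ⟨v, hv, rfl⟩
    exact hv.2

end Vale.Agent.P054.T2.H441
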