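import Vale.Agent.P054.T2.H441.ATriple
import Vale.Agent.P054.T2.H441.Lin
import Vale.Agent.P054.T2.H930.GlueB1

/-!
# P054 / T2, [STAB-INST]: the primes of `r` and of `s` are stable under the A-derivatives

Seam: triple family `T` (system `Ft`, GOOD at `e`) + [DOM] + [K'] give the hypothesis `hstab` of
[LIN], GENW and [CYL] for `S₁.Pr e` and `S₂.Pr e.swap`.
-/

set_option linter.unusedSectionVars false

open MvPolynomial

namespace Vale.Agent.P054.T2.H441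

open Vale.Agent.P054.T2.H686 Vale.Agent.P054.T2.H580 Vale.Agent.P054.T2.SecC
open Vale.Agent.P054.T2.H930
open Vale.Agent.P054.T2.H588 (mat mat_orth mat_mulVec KK GI ztL ztL_injective pv zt_eq)
open Vale.Agent.P054.T2.H431 (constF mem_constF)

variable {n : ℕ} {k : Type*} [CommRing k] [Algebra k ℝ]

section sandwich

variable {E0 E1 E2 : Finset (ZZ n × ZZ n)} {wt' : Crd n ⊕ Pt n → ℕ} {N c₀ c₁ c₂ σ₁ σ₂ : ℕ}
  (Z : ZData ℝ n E0 E1 E2 wt' N c₀ c₁ c₂ σ₁ σ₂)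

/-- **sandwich for `r`**: `germ(H2) ≤ Q_e ≤ P_T` and `P_T ∩ k[g,r] ≤ germ(H2)` -/
theorem mem_T_iff_r {e : ZZ n × ZZ n} (he : e ∈ E2) {c : ℕ} (Ft : Fin c → MvPolynomial (TI n) ℝ)
    (hmem : ∀ i, Z.F i ∈ germ (edgePt e.1 e.2) Ft)
    (hdom : ∀ G : MvPolynomial (Crd n ⊕ Pt n) ℝ, rename (j2 n) G ∈ germ (edgePt e.1 e.2) Ft →
      G ∈ germ (hatPt e.2 (mu e.2 e.1)) (Fin.append (fun i => rename Sum.inl (Z.f i)) Z.h'))
    (G : MvPolynomial (ZI n) ℝ) :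
    rename (jr n) G ∈ germ (edgePt e.1 e.2) Ft ↔ rename (jr n) G ∈ germ (edgePt e.1 e.2) Z.F := by
  constructor
  · intro h
    have h1 : rename (jr n) G = rename (j2 n) (rename (Sum.inr : ZI n → Crd n ⊕ Pt n) G) := by
      rw [rename_rename]; rfl
    rw [h1] at h ⊢
    exact edge_hat2_le Z.f Z.h Z.h' e.1 e.2 (Z.adj e (Z.mem0 he)).1 (Z.adj e (Z.mem0 he)).2 _
      (hdom _ h)
  · intro h
    exact germ_le_of_mem hmem h

/-- **sandwich for `s`** -/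
theorem mem_T_iff_s {e : ZZ n × ZZ n} {c : ℕ} (Ft : Fin c → MvPolynomial (TI n) ℝ)
    (hmem : ∀ i, Z.F i ∈ germ (edgePt e.1 e.2) Ft)
    (hdom : ∀ G : MvPolynomial (Crd n ⊕ Pt n) ℝ, rename (j1 n) G ∈ germ (edgePt e.1 e.2) Ft →
      G ∈ germ (hatPt e.1 (mu e.1 e.2)) (Fin.append (fun i => rename Sum.inl (Z.f i)) Z.h))
    (G : MvPolynomial (ZI n) ℝ) :
    rename (js n) G ∈ germ (edgePt e.1 e.2) Ft ↔ rename (js n) G ∈ germ (edgePt e.1 e.2) Z.F := by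
  constructor
  · intro h
    have h1 : rename (js n) G = rename (j1 n) (rename (Sum.inr : ZI n → Crd n ⊕ Pt n) G) := by
      rw [rename_rename]; rfl
    rw [h1] at h ⊢
    exact edge_hat1_le Z.f Z.h Z.h' e.1 e.2 _ (hdom _ h)
  · intro h
    exact germ_le_of_mem hmem h

end sandwich

section stab

/-- hypotheses on the triple family at one good edge `e` -/
structure TGood (k : Type*) [CommRing k] [Algebra k ℝ] (B : E n ≃ₗᵢ[ℝ] E n)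
    (𝓔 : Finset (ZZ n × ZZ n)) (w : TI n → ℕ) (M N' c : ℕ)
    (Ft : Fin c → MvPolynomial (TI n) ℝ) (e : ZZ n × ZZ n) : Prop where
  adj0 : ∀ e ∈ 𝓔, e.1.1 0 ≠ e.2.1 0
  pts : ∀ e ∈ 𝓔, ∃ s r : E n × E n, e.1 = zt B s ∧ e.2 = zt B r ∧ KK (constF k ℝ) s ∧
    KK (constF k ℝ) r
  w_ne : ∀ x, w x ≠ 0
  w_le : ∀ x, w x ≤ M
  memV : ∀ i, Ft i ∈ Vw ℝ w N'
  zero : ∀ e ∈ 𝓔, ∀ i, eval (edgePt e.1 e.2) (Ft i) = 0
  mem : e ∈ 𝓔
  ind : LinearIndependent ℝ (fun i => grad (edgePt e.1 e.2) (Ft i))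
  good : ∀ F ∈ Vw ℝ w (N' + 3 * M), (∀ e' ∈ 𝓔, eval (edgePt e'.1 e'.2) F = 0) →
    F ∈ germ (edgePt e.1 e.2) Ft

variable {B : E n ≃ₗᵢ[ℝ] E n} {𝓔 : Finset (ZZ n × ZZ n)} {w : TI n → ℕ} {M N' c : ℕ}
  {Ft : Fin c → MvPolynomial (TI n) ℝ} {e : ZZ n × ZZ n}

/-- [AD] for the triple family, pairs form -/
theorem TGood.stab (T : TGood k B 𝓔 w M N' c Ft e) (D : Derivation k ℝ ℝ)
    {h : MvPolynomial (ZI n ⊕ ZI n) ℝ}
    (hh : rename (Sum.inr : ZI n ⊕ ZI n → TI n) (chg2 (mat B) h) ∈ germ (edgePt e.1 e.2) Ft) :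
    rename (Sum.inr : ZI n ⊕ ZI n → TI n) (chg2 (mat B) (cD D h)) ∈
      germ (edgePt e.1 e.2) Ft := by
  refine triple_cD_mem D (mat_orth B) 𝓔 T.adj0 ?_ w T.w_ne T.w_le Ft T.memV T.zero T.mem T.ind
    T.good hh
  intro e' he'
  obtain ⟨s, r, hs, hr, ks, kr⟩ := T.pts e' he'
  exact ⟨pv s, pv r, by rw [zB_mat, hs], by rw [zB_mat, hr], fun j => ks.1 j D, fun j => ks.2 j D,
    fun j => kr.1 j D, fun j => kr.2 j D⟩

/-- **hstab for `r`.** -/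
theorem TGood.hstab_r (T : TGood k B 𝓔 w M N' c Ft e) {Pr : Ideal (MvPolynomial (ZI n) ℝ)}
    (hPr : ∀ G, rename (jr n) G ∈ germ (edgePt e.1 e.2) Ft ↔ G ∈ Pr) (D : Derivation k ℝ ℝ)
    (h : MvPolynomial (ZI n) ℝ) (hh : chg (mat B) h ∈ Pr) : chg (mat B) (cD D h) ∈ Pr := by
  rw [← hPr] at hh ⊢
  have h1 : ∀ h : MvPolynomial (ZI n) ℝ, rename (jr n) (chg (mat B) h) =
      rename (Sum.inr : ZI n ⊕ ZI n → TI n) (chg2 (mat B) (rename Sum.inr h)) := by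
    intro h
    rw [chg2_inr, rename_rename]
    rfl
  rw [h1] at hh ⊢
  rw [← cD_rename]
  exact T.stab D hh

/-- **hstab for `s`.** -/
theorem TGood.hstab_s (T : TGood k B 𝓔 w M N' c Ft e) {Pr : Ideal (MvPolynomial (ZI n) ℝ)}
    (hPr : ∀ G, rename (js n) G ∈ germ (edgePt e.1 e.2) Ft ↔ G ∈ Pr) (D : Derivation k ℝ ℝ)
    (h : MvPolynomial (ZI n) ℝ) (hh : chg (mat B) h ∈ Pr) : chg (mat B) (cD D h) ∈ Pr := by
  rw [← hPr] at hh ⊢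
  have h1 : ∀ h : MvPolynomial (ZI n) ℝ, rename (js n) (chg (mat B) h) =
      rename (Sum.inr : ZI n ⊕ ZI n → TI n) (chg2 (mat B) (rename Sum.inl h)) := by
    intro h
    rw [chg2_inl, rename_rename]
    rfl
  rw [h1] at hh ⊢
  rw [← cD_rename]
  exact T.stab D hh

/-- the direction space of `r` is defined over the constants -/
theorem TGood.overK_r (T : TGood k B 𝓔 w M N' c Ft e) {Pr : Ideal (MvPolynomial (ZI n) ℝ)}
    (hPr : ∀ G, rename (jr n) G ∈ germ (edgePt e.1 e.2) Ft ↔ G ∈ Pr) :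
    ∃ S : Set (E n × E n), (∀ v ∈ S, KK (constF k ℝ) v) ∧
      dirV Pr e.2 = Submodule.span ℝ (zt B '' S) := by
  obtain ⟨s, r, hs, hr, ks, kr⟩ := T.pts e T.mem
  rw [hr]
  exact dirV_eq_span B Pr (T.hstab_r hPr) r kr

/-- the direction space of `s` is defined over the constants -/
theorem TGood.overK_s (T : TGood k B 𝓔 w M N' c Ft e) {Pr : Ideal (MvPolynomial (ZI n) ℝ)}
    (hPr : ∀ G, rename (js n) G ∈ germ (edgePt e.1 e.2) Ft ↔ G ∈ Pr) :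
    ∃ S : Set (E n × E n), (∀ v ∈ S, KK (constF k ℝ) v) ∧
      dirV Pr e.1 = Submodule.span ℝ (zt B '' S) := by
  obtain ⟨s, r, hs, hr, ks, kr⟩ := T.pts e T.mem
  rw [hs]
  exact dirV_eq_span B Pr (T.hstab_s hPr) s ks

/-- with `w = s - r` added -/
theorem overK_sup {U : Submodule ℝ (ZZ n)}
    (hU : ∃ S : Set (E n × E n), (∀ v ∈ S, KK (constF k ℝ) v) ∧
      U = Submodule.span ℝ (zt B '' S)) {s r : E n × E n} (hs : KK (constF k ℝ) s)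
    (hr : KK (constF k ℝ) r) :
    ∃ S : Set (E n × E n), (∀ v ∈ S, KK (constF k ℝ) v) ∧
      U ⊔ Submodule.span ℝ {zt B s - zt B r} = Submodule.span ℝ (zt B '' S) := by
  obtain ⟨S, hS, rfl⟩ := hU
  refine ⟨S ∪ {s - r}, ?_, ?_⟩
  · rintro v (hv | hv)
    · exact hS v hv
    · rw [Set.mem_singleton_iff] at hv
      rw [hv]
      exact hs.sub hr
  · rw [Set.image_union, Set.image_singleton, zt_sub, Submodule.span_union]

end stab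

section side

variable {E0 E1 E2 : Finset (ZZ n × ZZ n)} {wt' : Crd n ⊕ Pt n → ℕ} {N c₀ c₁ c₂ σ₁ σ₂ : ℕ}
  (Z : ZData ℝ n E0 E1 E2 wt' N c₀ c₁ c₂ σ₁ σ₂) {B : E n ≃ₗᵢ[ℝ] E n} {w : TI n → ℕ}
  {M N' c : ℕ} {Ft : Fin c → MvPolynomial (TI n) ℝ} {e : ZZ n × ZZ n}

/-- the equations of `Z⁺` vanish on the germ of the triple family -/
theorem ZF_mem_T {𝓔 : Finset (ZZ n × ZZ n)} (hEE : 𝓔 ⊆ E0) (T : TGood k B 𝓔 w M N' c Ft e)
    (hZV : ∀ i, Z.F i ∈ Vw ℝ w (N' + 3 * M)) (i : Fin (c₀ + (c₁ + c₂))) :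
    Z.F i ∈ germ (edgePt e.1 e.2) Ft :=
  T.good _ (hZV i) fun _ he' => Z.F_zero (hEE he') i

/-- **[STAB-INST], side of `r`**: `hstab` and `OverK` for `S₁.Pr e`, `S₁.V e`. -/
theorem stab_side_r {𝓔 : Finset (ZZ n × ZZ n)} (hEE : 𝓔 ⊆ E0) (he : e ∈ E2)
    (T : TGood k B 𝓔 w M N' c Ft e) (hZV : ∀ i, Z.F i ∈ Vw ℝ w (N' + 3 * M))
    (hdom : ∀ G : MvPolynomial (Crd n ⊕ Pt n) ℝ, rename (j2 n) G ∈ germ (edgePt e.1 e.2) Ft →
      G ∈ germ (hatPt e.2 (mu e.2 e.1)) (Fin.append (fun i => rename Sum.inl (Z.f i)) Z.h'))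
    {A : Finset (ZZ n × ZZ n)} {W D σ v : ℕ} (S₁ : Side n A W D σ v)
    (hK : ∀ G, rename (jr n) G ∈ germ (edgePt e.1 e.2) Z.F ↔ G ∈ S₁.Pr e) :
    (∀ D : Derivation k ℝ ℝ, ∀ h, chg (mat B) h ∈ S₁.Pr e → chg (mat B) (cD D h) ∈ S₁.Pr e) ∧
    ∃ S : Set (E n × E n), (∀ v ∈ S, KK (constF k ℝ) v) ∧
      S₁.V e = Submodule.span ℝ (zt B '' S) := by
  have hPr : ∀ G, rename (jr n) G ∈ germ (edgePt e.1 e.2) Ft ↔ G ∈ S₁.Pr e := fun G =>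
    (mem_T_iff_r Z he Ft (ZF_mem_T Z hEE T hZV) hdom G).trans (hK G)
  exact ⟨T.hstab_r hPr, T.overK_r hPr⟩

/-- **[STAB-INST], side of `s`**: `hstab` and `OverK` for `S₂.Pr e.swap`, `S₂.V e.swap`. -/
theorem stab_side_s {𝓔 : Finset (ZZ n × ZZ n)} (hEE : 𝓔 ⊆ E0)
    (T : TGood k B 𝓔 w M N' c Ft e) (hZV : ∀ i, Z.F i ∈ Vw ℝ w (N' + 3 * M))
    (hdom : ∀ G : MvPolynomial (Crd n ⊕ Pt n) ℝ, rename (j1 n) G ∈ germ (edgePt e.1 e.2) Ft →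
      G ∈ germ (hatPt e.1 (mu e.1 e.2)) (Fin.append (fun i => rename Sum.inl (Z.f i)) Z.h))
    {A : Finset (ZZ n × ZZ n)} {W D σ v : ℕ} (S₂ : Side n A W D σ v)
    (hK : ∀ G, rename (js n) G ∈ germ (edgePt e.1 e.2) Z.F ↔ G ∈ S₂.Pr e.swap) :
    (∀ D : Derivation k ℝ ℝ, ∀ h, chg (mat B) h ∈ S₂.Pr e.swap →
      chg (mat B) (cD D h) ∈ S₂.Pr e.swap) ∧
    ∃ S : Set (E n × E n), (∀ v ∈ S, KK (constF k ℝ) v) ∧
      S₂.V e.swap = Submodule.span ℝ (zt B '' S) := by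
  have hPr : ∀ G, rename (js n) G ∈ germ (edgePt e.1 e.2) Ft ↔ G ∈ S₂.Pr e.swap := fun G =>
    (mem_T_iff_s Z Ft (ZF_mem_T Z hEE T hZV) hdom G).trans (hK G)
  exact ⟨T.hstab_s hPr, T.overK_s hPr⟩

end side

end Vale.Agent.P054.T2.H441
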