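import Vale.Agent.P054.T2.H441.StabEz
import Vale.Agent.P054.T2.H580.Inst
import Vale.Agent.P054.T2.H794.AData

/-!
# P054 / T2, (B-d): the triple family over `AData`: system, [GOOD], `TGood` off a small set
-/

set_option linter.unusedSectionVars false

open MvPolynomial

namespace Vale.Agent.P054.T2.H441

open Vale.Agent.P054.T2.H686 Vale.Agent.P054.T2.H580 Vale.Agent.P054.T2.SecC
open Vale.Agent.P054.T2.H930
open Vale.Agent.P054.T2.H588 (mat mat_orth KK GI kP KK_kP OverK)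
open Vale.Agent.P054.T2.H431 (constF mem_constF)
open Vale.Agent.P054.T2.H307 (wB FI Ed cA JA NN xF xT IsUnif IsFam van mem_van)
open Vale.Agent.P054.T2.H794

variable {n k β C₁ L K₀ q C k₀ i₀ i₁ Wg : ℕ} {E' : Finset (Ed n ℝ)} {v : FI × ℕ → ℕ}

/-- `AData` gives 580's `US` -/
theorem us_of (A : AData n k β C₁ L K₀ q C k₀ i₀ i₁ Wg E' v) :
    US n ℝ k β C₁ L K₀ q E' v := ⟨A.par, A.unif, A.ne⟩

/-- **system and [GOOD] of the triple family over `AData`** -/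
theorem exists_T (A : AData n k β C₁ L K₀ q C k₀ i₀ i₁ Wg E' v)
    (hC : 2 * (NN n * NN n) + 6 ≤ C) {β' : ℕ} (hq : 2 * β' ≤ q) :
    ∃ (m : ℕ) (Ft : Fin (v (FI.F, k₀) + m) → MvPolynomial (TI n) ℝ),
      v (FI.F, k₀) + m = v (FI.T k₀, i₀) ∧
      (∀ i, Ft i ∈ Vw ℝ (wB ((β ^ L) ^ k₀)) ((β ^ L) ^ (k₀ + i₀))) ∧
      (∀ e ∈ E', ∀ i, eval (edgePt e.1 e.2) (Ft i) = 0) ∧
      (∀ e ∈ E', LinearIndependent ℝ (fun i => grad (edgePt e.1 e.2) (Ft i))) ∧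
      ∃ Y ⊆ E', β' * Y.card ≤ E'.card ∧ ∀ e ∈ E', e ∉ Y →
        ∀ G ∈ Vw ℝ (wB ((β ^ L) ^ k₀)) ((β ^ L) ^ (k₀ + (i₀ + 2))),
          (∀ a ∈ E', eval (edgePt a.1 a.2) G = 0) → G ∈ germ (edgePt e.1 e.2) Ft := by
  classical
  have U := us_of A
  have hC1 : 1 ≤ C := by omega
  have hb := A.hb
  have hk₀ : k₀ ≤ K₀ := A.k₀_le
  have hi₁K : i₁ ≤ K₀ := (Nat.le_add_left _ _).trans (A.i₁_le_K hC1)
  have hi₀₁ : i₀ ≤ i₁ := A.i₀_le hC1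
  obtain ⟨f, hf, hind⟩ := U.sysF k₀ hk₀
  have hFH := U.famT k₀ hk₀
  obtain ⟨hge, hsys⟩ := U.sysHat (x := xT) (fun _ => rfl) k₀ hk₀ hFH f hf hind
  obtain ⟨m, hm⟩ := Nat.exists_eq_add_of_le (hge i₀ (hi₀₁.trans hi₁K))
  obtain ⟨Ft, h1, h2, h3, h4⟩ := hsys i₀ (hi₀₁.trans hi₁K) m hm.symm
  have hmonoF : ∀ a l : ℕ, a ≤ l → l < k₀ + 1 → v (FI.F, a) ≤ v (FI.F, l) :=
    fun a l hal hl => U.unif.fam_mono U.ne U.par.beta_gt_one (isFilt_total (k := ℝ)).mono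
      U.par.b_gt_one.le U.famF hal (by omega)
  have hmonoT : ∀ a l : ℕ, a ≤ l → l < i₀ + 1 → v (FI.T k₀, a) ≤ v (FI.T k₀, l) :=
    fun a l hal hl => U.unif.fam_mono U.ne U.par.beta_gt_one (Vw_mono _)
      U.par.b_gt_one.le hFH hal (by omega)
  have hV : ∀ i, Ft i ∈ van xT E' (Vw ℝ (wh (Crd n) (Pt n ⊕ Pt n) ((β ^ L) ^ k₀))
      ((β ^ L) ^ (k₀ + i₀))) := by
    intro i
    refine Fin.addCases (fun j => ?_) (fun j => ?_) i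
    · have h5 := mem_van.1 (h2 j)
      refine mem_van.2 ⟨Vw_mono _ (Nat.pow_le_pow_right hb.le ?_) h5.1, h5.2⟩
      have := kap_le_of_lt (k₀ + 1) (fun j => v (FI.F, j)) hmonoF j k₀ j.2
      omega
    · have h5 := mem_van.1 (h3 j)
      refine mem_van.2 ⟨Vw_mono _ (Nat.pow_le_pow_right hb.le ?_) h5.1, h5.2⟩
      have := kap_le_of_lt (i₀ + 1) (fun j => v (FI.T k₀, j)) hmonoT (v (FI.F, k₀) + j) i₀
        (by have := j.2; omega)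
      omega
  refine ⟨m, Ft, hm.symm, fun i => (mem_van.1 (hV i)).1, fun e he i => (mem_van.1 (hV i)).2 e he,
    h4, ?_⟩
  let Y : Finset (Ed n ℝ) := E'.filter fun e =>
    ∃ G ∈ Vw ℝ (wB ((β ^ L) ^ k₀)) ((β ^ L) ^ (k₀ + (i₀ + 2))),
      (∀ a ∈ E', eval (edgePt a.1 a.2) G = 0) ∧ G ∉ germ (edgePt e.1 e.2) Ft
  refine ⟨Y, Finset.filter_subset _ _, ?_, ?_⟩
  · refine U.goodHat (x := xT) (fun _ => rfl) (card_T_le n) k₀ hk₀ hFH i₀ i₁ hi₀₁ hi₁K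
      (fun i h5 h6 => A.winT i h5 h6.le) hm (fun i hi => hge i (hi.trans (hi₀₁.trans hi₁K))) Ft h2
      h3 h4 (Finset.Subset.refl E') (r := 1) (by omega) (by omega) (i₀ + 2) ?_ Y
      (Finset.filter_subset _ _) ?_
    · have h5 := A.geo
      have h6 : i₀ ≤ C * i₀ := Nat.le_mul_of_pos_left _ (by omega)
      omega
    · intro e he
      exact (Finset.mem_filter.1 he).2
  · intro e he heY G hG hG0
    by_contra hcon
    exact heY (Finset.mem_filter.2 ⟨he, G, hG, hG0, hcon⟩)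

theorem level_le {b k₀ i₀ : ℕ} (hb : 1 < b) : b ^ (k₀ + i₀) + 3 * b ^ k₀ ≤ b ^ (k₀ + (i₀ + 2)) := by
  have h1 : b ^ (k₀ + (i₀ + 2)) = b ^ (k₀ + i₀) * (b * b) := by rw [← add_assoc, pow_add]; ring
  have h2 : b ^ k₀ ≤ b ^ (k₀ + i₀) := Nat.pow_le_pow_right hb.le (by omega)
  have h3 : 4 ≤ b * b := Nat.mul_le_mul (show 2 ≤ b from hb) (show 2 ≤ b from hb)
  have h4 : b ^ (k₀ + i₀) * 4 ≤ b ^ (k₀ + i₀) * (b * b) := Nat.mul_le_mul_left _ h3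
  omega

/-- **`TGood` off a small set**, over `AData` and the actual edges. -/
theorem exists_TGood (A : AData n k β C₁ L K₀ q C k₀ i₀ i₁ Wg E' v)
    (hC : 2 * (NN n * NN n) + 6 ≤ C) {β' : ℕ} (hq : 2 * β' ≤ q) {P : Finset (E n)}
    {B : E n ≃ₗᵢ[ℝ] E n} (hB : Gm P B) (hn : 1 ≤ n) {C' : ℕ} (hE : E' ⊆ Ez P B C') :
    ∃ (m : ℕ) (Ft : Fin (v (FI.F, k₀) + m) → MvPolynomial (TI n) ℝ),
      v (FI.F, k₀) + m = v (FI.T k₀, i₀) ∧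
      ∃ Y ⊆ E', β' * Y.card ≤ E'.card ∧ ∀ e ∈ E', e ∉ Y →
        TGood (kP P) B E' (wB ((β ^ L) ^ k₀)) ((β ^ L) ^ k₀) ((β ^ L) ^ (k₀ + i₀)) _ Ft e ∧
        ∀ G ∈ Vw ℝ (wB ((β ^ L) ^ k₀)) ((β ^ L) ^ (k₀ + (i₀ + 2))),
          (∀ a ∈ E', eval (edgePt a.1 a.2) G = 0) → G ∈ germ (edgePt e.1 e.2) Ft := by
  obtain ⟨m, Ft, hm, hV, h0, hind, Y, hY, hYc, hgood⟩ := exists_T A hC hq
  refine ⟨m, Ft, hm, Y, hY, hYc, fun e he heY => ⟨?_, hgood e he heY⟩⟩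
  refine TGood.of_Ez hB hn hE (Nat.one_le_pow _ _ A.hb.le) hV h0 he (hind e he) ?_
  intro F hF hF0
  exact hgood e he heY F (Vw_mono _ (level_le A.hb) hF) hF0

end Vale.Agent.P054.T2.H441
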